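import Vale.Agent.P085.Interfaces

/-!
# Finite-spectrum approximation of self-adjoint and unitary elements of a corner

Spectral cuts are range projections of `max (h - t) 0`; they commute with everything that
commutes with `h`, and so in particular lie in the algebra.
-/

namespace Vale.Agent.P085

open scoped InnerProductSpace

universe u

variable {H : Type u} [NormedAddCommGroup H] [InnerProductSpace ℂ H] [CompleteSpace H]
variable {ξ : ℕ → H} {M : VonNeumannAlgebra H}

/-- `E` commutes with everything that commutes, together with its adjoint, with `h` -/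
def InBicommutant (h E : H →L[ℂ] H) : Prop :=
  ∀ y, Commute h y → Commute h (star y) → Commute E y

lemma InBicommutant.mem {h E : H →L[ℂ] H} (hE : InBicommutant h E) (hh : h ∈ M) : E ∈ M := by
  rw [← SetLike.mem_coe, ← M.centralizer_centralizer]
  intro y hy
  exact (hE y (hy h hh) (Set.star_mem_centralizer' (fun z hz => star_mem hz) hy h hh)).eq.symm

lemma InBicommutant.comm_self {h E : H →L[ℂ] H} (hE : InBicommutant h E) (hh : IsSelfAdjoint h) :
    Commute E h :=
  hE h (Commute.refl h) (by rw [hh.star_eq])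

lemma InBicommutant.comm {h E F : H →L[ℂ] H} (hE : InBicommutant h E) (hh : IsSelfAdjoint h)
    (hF : InBicommutant h F) (hFs : IsSelfAdjoint F) : Commute E F :=
  hE F (hF.comm_self hh).symm (by rw [hFs.star_eq]; exact (hF.comm_self hh).symm)

/-- the spectral cut of `h` at `t` -/
lemma exists_spectral_cut {h : H →L[ℂ] H} (hh : IsSelfAdjoint h) (t : ℝ) :
    ∃ P : H →L[ℂ] H, IsStarProjection P ∧ InBicommutant h P ∧
      cfc (fun z : ℝ => max (z - t) 0) h * (1 - P) = 0 ∧
      cfc (fun z : ℝ => max (t - z) 0) h * P = 0 := by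
  set f : H →L[ℂ] H := cfc (fun z : ℝ => max (z - t) 0) h with hf
  set g : H →L[ℂ] H := cfc (fun z : ℝ => max (t - z) 0) h with hg
  let K : Submodule ℂ H := f.range.topologicalClosure
  have : CompleteSpace K := Submodule.topologicalClosure.completeSpace _
  have hP : IsStarProjection K.starProjection := isStarProjection_starProjection
  have hfs : IsSelfAdjoint f := cfc_predicate _ h
  have hfix : K.starProjection * f = f := ContinuousLinearMap.ext fun v =>
    Submodule.starProjection_eq_self_iff.2 (f.range.le_topologicalClosure ⟨v, rfl⟩)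
  have hcomm : InBicommutant h K.starProjection := by
    have hinv : ∀ y, Commute h y → ∀ k ∈ K, y k ∈ K := by
      intro y hy k hk
      have hmaps : Set.MapsTo y (f.range : Set H) (f.range : Set H) := by
        rintro _ ⟨u, rfl⟩
        exact ⟨y u, DFunLike.congr_fun (hy.cfc_real _).eq u⟩
      exact (hmaps.closure y.continuous) hk
    intro y hy hy'
    refine ContinuousLinearMap.ext fun v => ?_
    change K.starProjection (y v) = y (K.starProjection v)
    refine Submodule.eq_starProjection_of_mem_orthogonal (hinv y hy _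
      (K.starProjection_apply_mem v)) ?_
    rw [← map_sub, Submodule.mem_orthogonal]
    intro k hk
    have := (Submodule.mem_orthogonal _ _).1 (K.sub_starProjection_mem_orthogonal v) _
      (hinv _ hy' k hk)
    rw [ContinuousLinearMap.star_eq_adjoint, ContinuousLinearMap.adjoint_inner_left] at this
    exact this
  refine ⟨K.starProjection, hP, hcomm, ?_, ?_⟩
  · have : f * K.starProjection = f := by
      have := congrArg star hfix
      rwa [star_mul, hP.isSelfAdjoint.star_eq, hfs.star_eq] at this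
    rw [mul_sub, mul_one, this, sub_self]
  · have hgf : g * f = 0 := by
      rw [hf, hg, ← cfc_mul (fun z : ℝ => max (t - z) 0) (fun z => max (z - t) 0) h,
        ← cfc_const_zero ℝ h]
      refine cfc_congr fun z _ => ?_
      rcases le_total z t with h1 | h1
      · rw [max_eq_right (by linarith : z - t ≤ 0), mul_zero]
      · rw [max_eq_right (by linarith : t - z ≤ 0), zero_mul]
    have hker : ∀ k ∈ K, g k = 0 := by
      intro k hk
      refine closure_minimal ?_ (isClosed_eq g.continuous continuous_const) hk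
      rintro _ ⟨u, rfl⟩
      exact DFunLike.congr_fun hgf u
    exact ContinuousLinearMap.ext fun v => hker _ (K.starProjection_apply_mem v)

/-- a vector supported in the spectral interval `[a, b]` -/
lemma norm_sub_smul_le {h : H →L[ℂ] H} (hh : IsSelfAdjoint h) {a b : ℝ} (hab : a ≤ b) {x : H}
    (hb : cfc (fun z : ℝ => max (z - b) 0) h x = 0)
    (ha : cfc (fun z : ℝ => max (a - z) 0) h x = 0) :
    ‖h x - (a : ℂ) • x‖ ≤ (b - a) * ‖x‖ := by
  set d : H →L[ℂ] H := cfc (fun z : ℝ => max a (min z b) - a) h with hd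
  have he : h - (a : ℂ) • 1 =
      d + cfc (fun z : ℝ => max (z - b) 0) h - cfc (fun z : ℝ => max (a - z) 0) h := by
    have e1 : h - (a : ℂ) • 1 = cfc (fun z : ℝ => z - a) h := by
      rw [cfc_sub (a := h) (fun z : ℝ => z) (fun _ => a), cfc_id' ℝ h, cfc_const a h,
        Algebra.algebraMap_eq_smul_one]
      rfl
    rw [e1, hd, ← cfc_add (a := h) (fun z : ℝ => max a (min z b) - a) (fun z => max (z - b) 0),
      ← cfc_sub (a := h) (fun z : ℝ => max a (min z b) - a + max (z - b) 0)
        (fun z => max (a - z) 0)]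
    refine cfc_congr fun z _ => ?_
    rcases le_total z b with h1 | h1
    · rcases le_total a z with h2 | h2 <;> simp [h1, h2]
    · simp [h1, hab, le_trans hab h1]
  have hdn : ‖d‖ ≤ b - a := by
    refine norm_cfc_le (by linarith) fun z _ => ?_
    rw [Real.norm_eq_abs, abs_of_nonneg (by linarith [le_max_left a (min z b)])]
    linarith [max_le hab (min_le_right z b)]
  have hx : h x - (a : ℂ) • x = d x := by
    have := DFunLike.congr_fun he x
    simp only [sub_apply, add_apply, smul_apply, one_apply_eq_self, hb, ha] at this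
    simpa using this
  rw [hx]
  exact (d.le_opNorm x).trans (mul_le_mul_of_nonneg_right hdn (norm_nonneg x))

lemma isStarProjection_mul {p q : H →L[ℂ] H} (hp : IsStarProjection p) (hq : IsStarProjection q)
    (hpq : Commute p q) : IsStarProjection (p * q) := by
  refine ⟨?_, ?_⟩
  · change p * q * (p * q) = p * q
    rw [mul_assoc p q, ← mul_assoc q p q, ← hpq.eq, mul_assoc p q q, hq.isIdempotentElem.eq,
      ← mul_assoc, hp.isIdempotentElem.eq]
  · rw [IsSelfAdjoint, star_mul, hp.isSelfAdjoint.star_eq, hq.isSelfAdjoint.star_eq, hpq.eq]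

/-- a finite spectral decomposition of a self-adjoint operator into intervals of length `θ` -/
theorem exists_spectral_partition {h : H →L[ℂ] H} (hh : IsSelfAdjoint h) {θ : ℝ} (hθ : 0 < θ) :
    ∃ (m : ℕ) (c : Fin m → ℝ) (E : Fin m → (H →L[ℂ] H)),
      (∀ i, IsStarProjection (E i) ∧ InBicommutant h (E i)) ∧
      (∀ i j, i ≠ j → E i * E j = 0) ∧ ∑ i, E i = 1 ∧ (∀ i, |c i| ≤ ‖h‖) ∧
      ∀ i x, E i x = x → ‖h x - (c i : ℂ) • x‖ ≤ θ * ‖x‖ := by
  obtain ⟨n, hn, hs⟩ : ∃ n : ℕ, 0 < n ∧ 2 * ‖h‖ ≤ θ * n := by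
    obtain ⟨n, hn⟩ := exists_nat_ge (2 * ‖h‖ / θ)
    refine ⟨n + 1, n.succ_pos, ?_⟩
    rw [div_le_iff₀ hθ] at hn
    push_cast
    nlinarith
  have hn' : (0 : ℝ) < n := by exact_mod_cast hn
  set s : ℝ := 2 * ‖h‖ / n with hs_def
  have hs0 : 0 ≤ s := by positivity
  have hsθ : s ≤ θ := by rw [hs_def, div_le_iff₀ hn']; exact hs
  have hspec : ∀ z ∈ spectrum ℝ h, |z| ≤ ‖h‖ := fun z hz => by
    simpa [Real.norm_eq_abs] using norm_apply_le_norm_cfc (fun z : ℝ => z) h hz
      |>.trans_eq (by rw [cfc_id' ℝ h])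
  have hts : ∀ k : ℕ, k ≤ n → |(-‖h‖ + k * s)| ≤ ‖h‖ := by
    intro k hk
    have h1 : (k : ℝ) * s ≤ n * s := by gcongr
    have h2 : (n : ℝ) * s = 2 * ‖h‖ := by rw [hs_def]; field_simp
    have h3 : 0 ≤ (k : ℝ) * s := by positivity
    rw [abs_le]; constructor <;> linarith
  suffices ∀ k ≤ n, ∃ (m : ℕ) (c : Fin m → ℝ) (E : Fin m → (H →L[ℂ] H)) (R : H →L[ℂ] H),
      (IsStarProjection R ∧ InBicommutant h R) ∧
      (∀ i, IsStarProjection (E i) ∧ InBicommutant h (E i) ∧ E i * R = 0 ∧ R * E i = 0) ∧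
      (∀ i j, i ≠ j → E i * E j = 0) ∧ R + ∑ i, E i = 1 ∧ (∀ i, |c i| ≤ ‖h‖) ∧
      cfc (fun z : ℝ => max (-‖h‖ + k * s - z) 0) h * R = 0 ∧
      ∀ i x, E i x = x → ‖h x - (c i : ℂ) • x‖ ≤ θ * ‖x‖ by
    obtain ⟨m, c, E, R, hR, hE, horth, hsum, hc, hlow, happ⟩ := this n le_rfl
    refine ⟨m + 1, Fin.cons (-‖h‖ + n * s) c, Fin.cons R E, ?_, ?_, ?_, ?_, ?_⟩
    · exact Fin.cases hR fun i => ⟨(hE i).1, (hE i).2.1⟩
    · intro i j hij
      induction i using Fin.cases with
      | zero =>
        induction j using Fin.cases with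
        | zero => exact absurd rfl hij
        | succ j => simpa using (hE j).2.2.2
      | succ i =>
        induction j using Fin.cases with
        | zero => simpa using (hE i).2.2.1
        | succ j => simpa using horth i j (fun h => hij (by rw [h]))
    · rw [Fin.sum_univ_succ]; simpa using hsum
    · exact Fin.cases (by simpa using hts n le_rfl) fun i => by simpa using hc i
    · intro i x
      induction i using Fin.cases with
      | zero =>
        simp only [Fin.cons_zero]
        intro hx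
        have ha : cfc (fun z : ℝ => max (-‖h‖ + n * s - z) 0) h x = 0 := by
          simpa [hx] using DFunLike.congr_fun hlow x
        have hb : cfc (fun z : ℝ => max (z - (-‖h‖ + n * s)) 0) h x = 0 := by
          have : cfc (fun z : ℝ => max (z - (-‖h‖ + n * s)) 0) h = 0 := by
            rw [← cfc_const_zero ℝ h]
            refine cfc_congr fun z hz => max_eq_right ?_
            have h2 : (n : ℝ) * s = 2 * ‖h‖ := by rw [hs_def]; field_simp
            have := (abs_le.1 (hspec z hz)).2
            linarith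
          rw [this]; rfl
        exact (norm_sub_smul_le hh le_rfl hb ha).trans (by
          rw [sub_self, zero_mul]; positivity)
      | succ i => simpa using happ i x
  intro k
  induction k with
  | zero =>
    intro _
    refine ⟨0, Fin.elim0, Fin.elim0, 1, ⟨IsStarProjection.one _, fun y _ _ => Commute.one_left y⟩,
      fun i => i.elim0, fun i => i.elim0, by simp, fun i => i.elim0, ?_, fun i => i.elim0⟩
    rw [mul_one, ← cfc_const_zero ℝ h]
    refine cfc_congr fun z hz => max_eq_right ?_
    have := (abs_le.1 (hspec z hz)).1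
    simp; linarith
  | succ k ih =>
    intro hk
    obtain ⟨m, c, E, R, hR, hE, horth, hsum, hc, hlow, happ⟩ := ih (by omega)
    obtain ⟨P, hP, hPc, hfP, hgP⟩ := exists_spectral_cut hh (-‖h‖ + (k + 1 : ℕ) * s)
    have hRP : Commute R P := hR.2.comm hh hPc hP.isSelfAdjoint
    have hP1 : InBicommutant h (1 - P) := fun y hy hy' =>
      (Commute.one_left y).sub_left (hPc y hy hy')
    have hRQ : Commute R (1 - P) := (Commute.one_right R).sub_right hRP
    refine ⟨m + 1, Fin.cons (-‖h‖ + k * s) c, Fin.cons (R * (1 - P)) E, R * P,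
      ⟨isStarProjection_mul hR.1 hP hRP,
        fun y hy hy' => (hR.2 y hy hy').mul_left (hPc y hy hy')⟩, ?_, ?_, ?_, ?_, ?_, ?_⟩
    · refine Fin.cases ⟨isStarProjection_mul hR.1 hP.one_sub hRQ,
        fun y hy hy' => (hR.2 y hy hy').mul_left (hP1 y hy hy'), ?_, ?_⟩ fun i => ?_
      · simp only [Fin.cons_zero]
        rw [hRQ.eq, mul_assoc, ← mul_assoc R R P, hR.1.isIdempotentElem.eq, hRP.eq, ← mul_assoc,
          hP.isIdempotentElem.one_sub_mul_self, zero_mul]
      · simp only [Fin.cons_zero]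
        rw [mul_assoc, ← mul_assoc P R, ← hRP.eq, mul_assoc R P (1 - P),
          hP.isIdempotentElem.mul_one_sub_self, mul_zero, mul_zero]
      · simp only [Fin.cons_succ]
        exact ⟨(hE i).1, (hE i).2.1, by rw [← mul_assoc, (hE i).2.2.1, zero_mul],
          by rw [hRP.eq, mul_assoc, (hE i).2.2.2, mul_zero]⟩
    · intro i j hij
      induction i using Fin.cases with
      | zero =>
        induction j using Fin.cases with
        | zero => exact absurd rfl hij
        | succ j =>
          simp only [Fin.cons_zero, Fin.cons_succ]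
          rw [hRQ.eq, mul_assoc, (hE j).2.2.2, mul_zero]
      | succ i =>
        induction j using Fin.cases with
        | zero =>
          simp only [Fin.cons_zero, Fin.cons_succ]
          rw [← mul_assoc, (hE i).2.2.1, zero_mul]
        | succ j => simpa using horth i j (fun h => hij (by rw [h]))
    · rw [Fin.sum_univ_succ]
      simp only [Fin.cons_zero, Fin.cons_succ]
      rw [← add_assoc, ← mul_add, add_sub_cancel, mul_one, hsum]
    · exact Fin.cases (by simpa using hts k (by omega)) fun i => by simpa using hc i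
    · rw [hRP.eq, ← mul_assoc, hgP, zero_mul]
    · intro i x
      induction i using Fin.cases with
      | zero =>
        simp only [Fin.cons_zero]
        intro hx
        have ha : cfc (fun z : ℝ => max (-‖h‖ + k * s - z) 0) h x = 0 := by
          rw [← hx]
          exact DFunLike.congr_fun hlow ((1 - P) x)
        have hb : cfc (fun z : ℝ => max (z - (-‖h‖ + (k + 1 : ℕ) * s)) 0) h x = 0 := by
          rw [← hx, hRQ.eq]
          exact DFunLike.congr_fun hfP (R x)
        refine (norm_sub_smul_le hh (by push_cast; nlinarith) hb ha).trans ?_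
        push_cast
        nlinarith [mul_le_mul_of_nonneg_right hsθ (norm_nonneg x)]
      | succ i => simpa using happ i x

lemma norm_proj_apply_le {p : H →L[ℂ] H} (hp : IsStarProjection p) (v : H) : ‖p v‖ ≤ ‖v‖ := by
  have h1 : ‖p v‖ ^ 2 = RCLike.re ⟪v, p v⟫_ℂ := by
    rw [@norm_sq_eq_re_inner ℂ, ← ContinuousLinearMap.adjoint_inner_right,
      ← ContinuousLinearMap.star_eq_adjoint, hp.isSelfAdjoint.star_eq]
    exact congrArg (fun w : H => RCLike.re ⟪v, w⟫_ℂ) (DFunLike.congr_fun hp.isIdempotentElem.eq v)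
  have h2 : RCLike.re ⟪v, p v⟫_ℂ ≤ ‖v‖ * ‖p v‖ :=
    (RCLike.re_le_norm _).trans (norm_inner_le_norm _ _)
  nlinarith [norm_nonneg (p v), norm_nonneg v, sq_nonneg (‖p v‖ - ‖v‖)]

/-- operators that are uniformly small on each cell of an orthogonal family are small on its sum -/
lemma norm_sum_mul_le {ι : Type*} [Fintype ι] {e : H →L[ℂ] H} (he : IsStarProjection e)
    {E : ι → (H →L[ℂ] H)} (hE : ∀ i, IsStarProjection (E i)) (horth : ∀ i j, i ≠ j → E i * E j = 0)
    (htot : ∑ i, E i = e) {A : ι → (H →L[ℂ] H)} (hc : ∀ i, Commute (E i) (A i)) {θ : ℝ}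
    (hθ : 0 ≤ θ) (hA : ∀ i x, E i x = x → ‖A i x‖ ≤ θ * ‖x‖) :
    ‖∑ i, A i * E i‖ ≤ θ := by
  refine ContinuousLinearMap.opNorm_le_bound _ hθ fun v => ?_
  have hpy : ∀ w : ι → H, (∀ i, E i (w i) = w i) → ‖∑ i, w i‖ ^ 2 = ∑ i, ‖w i‖ ^ 2 := by
    intro w hw
    rw [@norm_sq_eq_re_inner ℂ, sum_inner, map_sum]
    refine Finset.sum_congr rfl fun i _ => ?_
    rw [inner_sum, Finset.sum_eq_single i, ← @norm_sq_eq_re_inner ℂ]
    · intro j _ hji
      rw [← hw i, ← hw j, ← ContinuousLinearMap.adjoint_inner_right,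
        ← ContinuousLinearMap.star_eq_adjoint, (hE i).isSelfAdjoint.star_eq]
      change ⟪w i, (E i * E j) (w j)⟫_ℂ = 0
      rw [horth i j (Ne.symm hji)]
      simp
    · simp
  have hid : ∀ i, E i (E i v) = E i v := fun i =>
    DFunLike.congr_fun (hE i).isIdempotentElem.eq v
  have h1 : ‖∑ i, A i (E i v)‖ ^ 2 = ∑ i, ‖A i (E i v)‖ ^ 2 := hpy _ fun i => by
    exact (DFunLike.congr_fun (hc i).eq (E i v)).trans (congrArg (A i) (hid i))
  have h2 : ‖∑ i, E i v‖ ^ 2 = ∑ i, ‖E i v‖ ^ 2 := hpy _ hid
  have h3 : ‖∑ i, E i v‖ ≤ ‖v‖ := by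
    rw [← sum_apply, htot]
    exact norm_proj_apply_le he v
  have h4 : ‖∑ i, A i (E i v)‖ ^ 2 ≤ (θ * ‖v‖) ^ 2 := by
    rw [h1, mul_pow]
    calc ∑ i, ‖A i (E i v)‖ ^ 2 ≤ ∑ i, θ ^ 2 * ‖E i v‖ ^ 2 := Finset.sum_le_sum fun i _ => by
          rw [← mul_pow]; exact pow_le_pow_left₀ (norm_nonneg _) (hA i _ (hid i)) 2
      _ = θ ^ 2 * ‖∑ i, E i v‖ ^ 2 := by rw [h2, Finset.mul_sum]
      _ ≤ θ ^ 2 * ‖v‖ ^ 2 := by gcongr
  have := le_of_pow_le_pow_left₀ (by norm_num) (by positivity) h4
  simpa using this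

/-- the strong form used for commuting families: the cells commute with whatever commutes with `h`
and with `e` -/
theorem exists_corner_spectral_partition {e h : H →L[ℂ] H} (he : IsProj M e) (hh : h ∈ M)
    (hsa : IsSelfAdjoint h) (heh : e * h = h) {θ : ℝ} (hθ : 0 < θ) :
    ∃ (m : ℕ) (c : Fin m → ℝ) (E : Fin m → (H →L[ℂ] H)), IsPartition M e E ∧
      (∀ i, |c i| ≤ ‖h‖) ∧
      (∀ y, Commute h y → Commute h (star y) → Commute e y → ∀ i, Commute (E i) y) ∧
      ∀ i x, E i x = x → ‖h x - (c i : ℂ) • x‖ ≤ θ * ‖x‖ := by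
  obtain ⟨m, c, E, hE, horth, hsum, hc, happ⟩ := exists_spectral_partition hsa hθ
  have hhe : h * e = h := by
    have := congrArg star heh
    rwa [star_mul, hsa.star_eq, he.2.isSelfAdjoint.star_eq] at this
  have hce : Commute h e := hhe.trans heh.symm
  have hEe : ∀ i, Commute (E i) e := fun i =>
    (hE i).2 e hce (by rw [he.2.isSelfAdjoint.star_eq]; exact hce)
  refine ⟨m, c, fun i => E i * e, ⟨fun i => ⟨mul_mem ((hE i).2.mem hh) he.1,
    isStarProjection_mul (hE i).1 he.2 (hEe i)⟩, fun i j hij => ?_, ?_⟩, hc,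
    fun y hy hy' hey i => ((hE i).2 y hy hy').mul_left hey, fun i x hx => happ i x ?_⟩
  · rw [mul_assoc, ← mul_assoc e, ← (hEe j).eq, mul_assoc (E j) e e, ← mul_assoc, horth i j hij,
      zero_mul]
  · rw [← Finset.sum_mul, hsum, one_mul]
  · rw [← hx]
    exact DFunLike.congr_fun (hE i).1.isIdempotentElem.eq (e x)

theorem saApproxOut (M : VonNeumannAlgebra H) : SaApproxOut M := by
  intro e he h hh hsa heh θ hθ
  obtain ⟨m, c, E, hE, hc, hcomm, happ⟩ := exists_corner_spectral_partition he hh hsa heh hθ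
  have hhe : h * e = h := by
    have := congrArg star heh
    rwa [star_mul, hsa.star_eq, he.2.isSelfAdjoint.star_eq] at this
  have hEh : ∀ i, Commute (E i) h := hcomm h (Commute.refl h) (by rw [hsa.star_eq])
    (heh.trans hhe.symm)
  refine ⟨m, c, E, hE, hc, fun i => (hEh i).eq, ?_⟩
  have hsub : h - ∑ i, (c i : ℂ) • E i = ∑ i, (h - (c i : ℂ) • 1) * E i := by
    simp only [sub_mul, smul_mul_assoc, one_mul, Finset.sum_sub_distrib, ← Finset.mul_sum]
    rw [hE.total, hhe]
  rw [hsub]
  refine norm_sum_mul_le he.2 (fun i => (hE.proj i).2) hE.orth hE.total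
    (fun i => (hEh i).sub_right ((Commute.one_right _).smul_right _)) hθ.le fun i x hx => ?_
  simpa using happ i x hx

/-- regrouping the cells of a partition -/
lemma IsPartition.regroup {ι κ : Type*} [Fintype ι] [Fintype κ] [DecidableEq κ]
    {e : H →L[ℂ] H} {E : ι → (H →L[ℂ] H)} (hE : IsPartition M e E) (f : ι → κ) :
    IsPartition M e fun k => ∑ i with f i = k, E i := by
  refine ⟨fun k => ⟨sum_mem fun i _ => (hE.proj i).1, ?_, ?_⟩, fun k l hkl => ?_, ?_⟩
  · change (∑ i with f i = k, E i) * (∑ i with f i = k, E i) = ∑ i with f i = k, E i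
    rw [Finset.sum_mul]
    refine Finset.sum_congr rfl fun i hi => ?_
    rw [Finset.mul_sum, Finset.sum_eq_single i (fun j _ hji => hE.orth i j hji.symm)
      (fun h => absurd hi h)]
    exact (hE.proj i).2.isIdempotentElem.eq
  · rw [IsSelfAdjoint, star_sum]
    exact Finset.sum_congr rfl fun i _ => (hE.proj i).2.isSelfAdjoint.star_eq
  · rw [Finset.sum_mul]
    refine Finset.sum_eq_zero fun i hi => ?_
    rw [Finset.mul_sum]
    refine Finset.sum_eq_zero fun j hj => hE.orth i j fun hij => hkl ?_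
    rw [← (Finset.mem_filter.1 hi).2, ← (Finset.mem_filter.1 hj).2, hij]
  · rw [Finset.sum_fiberwise]
    exact hE.total

/-- every complex number is close to its modulus times a root of unity -/
lemma exists_root_near (h : ℕ) (z : ℂ) : ∃ m : Fin (2 * h + 1),
    ‖z - Complex.exp (2 * Real.pi * Complex.I * (m.1 : ℂ) / (2 * h + 1 : ℕ))‖
      ≤ |‖z‖ - 1| + 2 * Real.pi / (2 * h + 1 : ℕ) := by
  set q : ℕ := 2 * h + 1 with hq
  have hq0 : (0 : ℝ) < q := by positivity
  set k : ℤ := ⌊z.arg / (2 * Real.pi) * q⌋ with hk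
  have hqz : (0 : ℤ) < q := by omega
  refine ⟨⟨(k % q).toNat, by
    have := Int.emod_lt_of_pos k hqz
    have := Int.emod_nonneg k hqz.ne'
    omega⟩, ?_⟩
  have hmod : ((k % (q : ℤ)).toNat : ℤ) = k % q := Int.toNat_of_nonneg (Int.emod_nonneg k hqz.ne')
  set y : ℝ := 2 * Real.pi * k / q with hy
  have hexp : Complex.exp (2 * Real.pi * Complex.I * (((k % q).toNat : ℕ) : ℂ) / (q : ℕ))
      = Complex.exp (y * Complex.I) := by
    rw [Complex.exp_eq_exp_iff_exists_int]
    refine ⟨-(k / q), ?_⟩
    have e : (((k % q).toNat : ℕ) : ℂ) = (k : ℂ) - q * (k / q : ℤ) := by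
      have : (((k % q).toNat : ℕ) : ℂ) = ((k % q : ℤ) : ℂ) := by exact_mod_cast congrArg (Int.cast (R := ℂ)) hmod
      rw [this, Int.emod_def]; push_cast; ring
    have hqc : ((q : ℕ) : ℂ) ≠ 0 := by exact_mod_cast hq0.ne'
    rw [e, hy]
    push_cast
    field_simp
    ring
  simp only
  rw [hexp]
  have hd : |z.arg - y| ≤ 2 * Real.pi / q := by
    have h1 := Int.floor_le (z.arg / (2 * Real.pi) * q)
    have h2 := Int.lt_floor_add_one (z.arg / (2 * Real.pi) * q)
    rw [← hk] at h1 h2
    rw [div_mul_eq_mul_div] at h1 h2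
    rw [le_div_iff₀ (by positivity)] at h1
    rw [div_lt_iff₀ (by positivity)] at h2
    rw [hy, abs_le]
    constructor
    · rw [sub_div' hq0.ne', neg_div', div_le_div_iff_of_pos_right hq0]
      nlinarith [Real.pi_pos]
    · rw [sub_div' hq0.ne', div_le_div_iff_of_pos_right hq0]
      nlinarith [Real.pi_pos]
  have hz : z = (‖z‖ : ℂ) * Complex.exp (z.arg * Complex.I) := (Complex.norm_mul_exp_arg_mul_I z).symm
  have hdec : z - Complex.exp (y * Complex.I)
      = ((‖z‖ - 1 : ℝ) : ℂ) * Complex.exp (z.arg * Complex.I)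
        + Complex.exp (y * Complex.I) * (Complex.exp (Complex.I * ((z.arg - y : ℝ) : ℂ)) - 1) := by
    conv_lhs => rw [hz]
    rw [mul_sub, ← Complex.exp_add]
    push_cast
    rw [show (y : ℂ) * Complex.I + Complex.I * ((z.arg : ℂ) - y) = z.arg * Complex.I by ring]
    ring
  rw [hdec]
  refine (norm_add_le _ _).trans (add_le_add ?_ ?_)
  · rw [norm_mul, Complex.norm_exp_ofReal_mul_I, mul_one, Complex.norm_real, Real.norm_eq_abs]
  · rw [norm_mul, Complex.norm_exp_ofReal_mul_I, one_mul]
    exact Real.norm_exp_I_mul_ofReal_sub_one_le.trans (by rwa [Real.norm_eq_abs])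

theorem unitaryApproxOut (T : Setup M ξ) : UnitaryApproxOut M ξ := by
  intro e he u hu heu hue huu huu' θ hθ N
  obtain ⟨h, hN, hh⟩ : ∃ h : ℕ, N ≤ h ∧ 2 * Real.pi / (2 * h + 1 : ℕ) ≤ θ / 2 := by
    obtain ⟨h, hh⟩ := exists_nat_ge (4 * Real.pi / θ)
    refine ⟨max N h, le_max_left _ _, ?_⟩
    rw [div_le_iff₀ hθ] at hh
    have h1 : (h : ℝ) ≤ max (N : ℝ) h := le_max_right _ _
    rw [div_le_iff₀ (by positivity)]
    push_cast
    nlinarith
  have hes : star e = e := he.2.isSelfAdjoint.star_eq
  have hesu : e * star u = star u := by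
    have := congrArg star hue
    rwa [star_mul, hes] at this
  have hsue : star u * e = star u := by
    have := congrArg star heu
    rwa [star_mul, hes] at this
  set A : H →L[ℂ] H := (1 / 2 : ℂ) • (u + star u) with hA
  set B : H →L[ℂ] H := (-Complex.I / 2) • (u - star u) with hB
  have hu' : Commute u (star u) := huu'.trans huu.symm
  have hAs : IsSelfAdjoint A := by
    rw [IsSelfAdjoint, hA, star_smul, star_add, star_star, add_comm]
    norm_num
  have hBs : IsSelfAdjoint B := by
    rw [IsSelfAdjoint, hB, star_smul, star_sub, star_star, ← neg_sub u, smul_neg, ← neg_smul]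
    congr 1
    simp [neg_div]
  have hAB : Commute A B := by
    refine ((Commute.sub_right ?_ ?_).smul_right _).smul_left _
    · exact (Commute.refl u).add_left hu'.symm
    · exact hu'.add_left (Commute.refl _)
  have hue' : Commute e u := heu.trans hue.symm
  have hue'' : Commute e (star u) := hesu.trans hsue.symm
  have hAM : A ∈ M := M.toStarSubalgebra.smul_mem (add_mem hu (star_mem hu)) _
  have hBM : B ∈ M := M.toStarSubalgebra.smul_mem (sub_mem hu (star_mem hu)) _
  have heA : e * A = A := by rw [hA, mul_smul_comm, mul_add, heu, hesu]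
  have heB : e * B = B := by rw [hB, mul_smul_comm, mul_sub, heu, hesu]
  have hceA : Commute e A := ((hue'.add_right hue'')).smul_right _
  have hceB : Commute e B := ((hue'.sub_right hue'')).smul_right _
  obtain ⟨m, a, E, hE, -, hEc, hEa⟩ :=
    exists_corner_spectral_partition he hAM hAs heA (θ := θ / 8) (by positivity)
  obtain ⟨n, b, F, hF, -, hFc, hFb⟩ :=
    exists_corner_spectral_partition he hBM hBs heB (θ := θ / 8) (by positivity)
  have hEB : ∀ i, Commute (E i) B := hEc B hAB (by rw [hBs.star_eq]; exact hAB) hceB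
  have hEA : ∀ i, Commute (E i) A := hEc A (Commute.refl A) (by rw [hAs.star_eq]) hceA
  have hFA : ∀ j, Commute (F j) A := hFc A hAB.symm (by rw [hAs.star_eq]; exact hAB.symm) hceA
  have hFB : ∀ j, Commute (F j) B := hFc B (Commute.refl B) (by rw [hBs.star_eq]) hceB
  have hEe : ∀ i, Commute (E i) e := hEc e hceA.symm (by rw [hes]; exact hceA.symm) (Commute.refl e)
  have hEF : ∀ i j, Commute (E i) (F j) := fun i j => by
    refine (hFc (E i) (hEB i).symm ?_ (hEe i).symm j).symm
    rw [(hE.proj i).2.isSelfAdjoint.star_eq]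
    exact (hEB i).symm
  set G : Fin m × Fin n → (H →L[ℂ] H) := fun p => E p.1 * F p.2 with hG
  have hGp : IsPartition M e G := by
    refine ⟨fun p => ⟨mul_mem (hE.proj _).1 (hF.proj _).1,
      isStarProjection_mul (hE.proj _).2 (hF.proj _).2 (hEF _ _)⟩, fun p q hpq => ?_, ?_⟩
    · change E p.1 * F p.2 * (E q.1 * F q.2) = 0
      rw [mul_assoc, ← mul_assoc (F p.2), ← (hEF q.1 p.2).eq, mul_assoc (E q.1), ← mul_assoc]
      rcases ne_or_eq p.1 q.1 with h1 | h1
      · rw [hE.orth _ _ h1, zero_mul]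
      · have h2 : p.2 ≠ q.2 := fun h2 => hpq (Prod.ext h1 h2)
        rw [hF.orth _ _ h2, mul_zero]
    · rw [Fintype.sum_prod_type]
      simp only [hG, ← Finset.mul_sum, ← Finset.sum_mul, hF.total, hE.total]
      exact he.2.isIdempotentElem.eq
  set z : Fin m × Fin n → ℂ := fun p => (a p.1 : ℂ) + (b p.2 : ℂ) * Complex.I with hz
  have hdecu : u = A + Complex.I • B := by
    rw [hA, hB, smul_smul]
    rw [show Complex.I * (-Complex.I / 2) = (1 / 2 : ℂ) by
      rw [mul_div_assoc', mul_neg, Complex.I_mul_I]; norm_num, ← smul_add]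
    rw [show u + star u + (u - star u) = (2 : ℂ) • u by rw [two_smul]; abel, smul_smul]
    norm_num
  have hcell : ∀ p x, G p x = x → ‖u x - z p • x‖ ≤ θ / 4 * ‖x‖ := by
    intro p x hx
    have h1 : E p.1 x = x := by
      rw [← hx]
      exact DFunLike.congr_fun (hE.proj p.1).2.isIdempotentElem.eq (F p.2 x)
    have h2 : F p.2 x = x := by
      rw [← hx]
      change F p.2 ((E p.1 * F p.2) x) = (E p.1 * F p.2) x
      rw [(hEF _ _).eq]
      exact DFunLike.congr_fun (hF.proj p.2).2.isIdempotentElem.eq (E p.1 x)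
    have e1 : u x - z p • x = (A x - (a p.1 : ℂ) • x) + Complex.I • (B x - (b p.2 : ℂ) • x) := by
      rw [hdecu, hz]
      simp only [add_apply, smul_apply, add_smul, smul_sub, smul_smul]
      rw [mul_comm Complex.I ((b p.2 : ℂ))]
      abel
    rw [e1]
    refine (norm_add_le _ _).trans ?_
    rw [norm_smul, Complex.norm_I, one_mul]
    linarith [hEa _ x h1, hFb _ x h2]
  choose μ hμ using fun p => exists_root_near h (z p)
  refine ⟨h, fun k => ∑ p with μ p = k, G p, hN, hGp.regroup μ, ?_⟩
  set ω : Fin (2 * h + 1) → ℂ := fun k =>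
    Complex.exp (2 * Real.pi * Complex.I * (k.1 : ℂ) / (2 * h + 1 : ℕ)) with hω
  have hsub : u - ∑ k, ω k • (∑ p with μ p = k, G p) = ∑ p, (u - ω (μ p) • 1) * G p := by
    have e1 : ∀ k, ω k • (∑ p with μ p = k, G p) = ∑ p with μ p = k, ω (μ p) • G p := fun k => by
      rw [Finset.smul_sum]
      exact Finset.sum_congr rfl fun p hp => by rw [(Finset.mem_filter.1 hp).2]
    simp only [e1, Finset.sum_fiberwise, sub_mul, smul_mul_assoc, one_mul,
      Finset.sum_sub_distrib, ← Finset.mul_sum, hGp.total, hue]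
  have hGu : ∀ p, Commute (G p) u := fun p => by
    rw [hdecu]
    exact (((hEA _).mul_left (hFA _))).add_right ((((hEB _).mul_left (hFB _))).smul_right _)
  have hnorm : ‖∑ p, (u - ω (μ p) • 1) * G p‖ ≤ θ := by
    refine norm_sum_mul_le he.2 (fun p => (hGp.proj p).2) hGp.orth hGp.total
      (fun p => (hGu p).sub_right ((Commute.one_right _).smul_right _)) hθ.le fun p x hx => ?_
    rcases eq_or_ne x 0 with rfl | hx0
    · simp
    have hxpos : 0 < ‖x‖ := norm_pos_iff.2 hx0
    have hex : e x = x := by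
      rw [← hx, ← hGp.total]
      change ((∑ q, G q) * G p) x = G p x
      rw [Finset.sum_mul, Finset.sum_eq_single p (fun q _ hq => hGp.orth q p hq) (by simp),
        (hGp.proj p).2.isIdempotentElem.eq]
    have hux : ‖u x‖ = ‖x‖ := by
      rw [← sq_eq_sq₀ (norm_nonneg _) (norm_nonneg _), @norm_sq_eq_re_inner ℂ,
        @norm_sq_eq_re_inner ℂ _ _ _ _ x]
      congr 1
      rw [← ContinuousLinearMap.adjoint_inner_right u x (u x), ← ContinuousLinearMap.star_eq_adjoint]
      change ⟪x, (star u * u) x⟫_ℂ = _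
      rw [huu, hex]
    have hzp : |‖z p‖ - 1| ≤ θ / 4 := by
      have h1 := hcell p x hx
      have h2 := abs_norm_sub_norm_le (u x) (z p • x)
      rw [hux, norm_smul, abs_sub_comm, show ‖z p‖ * ‖x‖ - ‖x‖ = (‖z p‖ - 1) * ‖x‖ by ring,
        abs_mul, abs_norm] at h2
      exact le_of_mul_le_mul_right (h2.trans h1) hxpos
    have e2 : (u - ω (μ p) • 1) x = (u x - z p • x) + (z p - ω (μ p)) • x := by
      simp only [sub_apply, smul_apply, one_apply_eq_self, sub_smul]
      abel
    rw [e2]
    refine (norm_add_le _ _).trans ?_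
    rw [norm_smul]
    have h3 : ‖z p - ω (μ p)‖ ≤ 3 / 4 * θ := by
      refine (hμ p).trans ?_
      linarith
    nlinarith [hcell p x hx, mul_le_mul_of_nonneg_right h3 (norm_nonneg x)]
  rw [hsub]
  have h1 : n2 ξ (1 : H →L[ℂ] H) = 1 := by
    simp [n2, T.trace.one]
  have := n2_mul_le T.trace.summable (∑ p, (u - ω (μ p) • 1) * G p) 1
  rw [mul_one, h1, mul_one] at this
  exact this.trans hnorm

end Vale.Agent.P085
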