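import Vale.Agent.P085.Interfaces

/-!
# Elementary facts on the trace, the trace norm and projections
-/

namespace Vale.Agent.P085

open scoped InnerProductSpace

universe u

variable {H : Type u} [NormedAddCommGroup H] [InnerProductSpace ℂ H] [CompleteSpace H]
variable {M : VonNeumannAlgebra H} {ξ : ℕ → H}

section Summable

variable (hξ : Summable fun i => ‖ξ i‖ ^ 2)
include hξ

lemma vecState_eq_inner (a : H →L[ℂ] H) : vecState ξ a = ⟪emb hξ 1, emb hξ a⟫_ℂ := by
  rw [inner_emb, star_one, one_mul]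

lemma vecState_add (a b : H →L[ℂ] H) : vecState ξ (a + b) = vecState ξ a + vecState ξ b := by
  simp only [vecState_eq_inner hξ, map_add, inner_add_right]

lemma vecState_sub (a b : H →L[ℂ] H) : vecState ξ (a - b) = vecState ξ a - vecState ξ b := by
  simp only [vecState_eq_inner hξ, map_sub, inner_sub_right]

lemma vecState_smul (c : ℂ) (a : H →L[ℂ] H) : vecState ξ (c • a) = c * vecState ξ a := by
  simp only [vecState_eq_inner hξ, map_smul, inner_smul_right]

lemma vecState_sum {ι : Type*} (s : Finset ι) (a : ι → H →L[ℂ] H) :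
    vecState ξ (∑ i ∈ s, a i) = ∑ i ∈ s, vecState ξ (a i) := by
  simp only [vecState_eq_inner hξ, map_sum, inner_sum]

lemma vecState_star (a : H →L[ℂ] H) :
    vecState ξ (star a) = starRingEnd ℂ (vecState ξ a) := by
  rw [vecState_eq_inner hξ, inner_emb, vecState_eq_inner hξ a, ← inner_conj_symm, inner_emb,
    star_one, one_mul, mul_one]
  simp

lemma n2_zero : n2 ξ (0 : H →L[ℂ] H) = 0 := by rw [← norm_emb hξ, map_zero, norm_zero]

lemma n2_neg (a : H →L[ℂ] H) : n2 ξ (-a) = n2 ξ a := by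
  rw [← norm_emb hξ, map_neg, norm_neg, norm_emb hξ]

lemma n2_sub_comm (a b : H →L[ℂ] H) : n2 ξ (a - b) = n2 ξ (b - a) := by
  rw [← neg_sub, n2_neg hξ]

lemma n2_sum_le {ι : Type*} (s : Finset ι) (a : ι → H →L[ℂ] H) :
    n2 ξ (∑ i ∈ s, a i) ≤ ∑ i ∈ s, n2 ξ (a i) := by
  simp only [← norm_emb hξ, map_sum]
  exact norm_sum_le _ _

lemma n2_sub_le (a b c : H →L[ℂ] H) : n2 ξ (a - c) ≤ n2 ξ (a - b) + n2 ξ (b - c) := by
  rw [← sub_add_sub_cancel a b c]
  exact n2_add_le hξ _ _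

lemma n2_sq_eq (a : H →L[ℂ] H) : n2 ξ a ^ 2 = (vecState ξ (star a * a)).re := by
  rw [vecState_star_mul_self hξ, Complex.ofReal_re]

lemma norm_vecState_le (a b : H →L[ℂ] H) :
    ‖vecState ξ (star a * b)‖ ≤ n2 ξ a * n2 ξ b := by
  rw [← inner_emb hξ, ← norm_emb hξ, ← norm_emb hξ]
  exact norm_inner_le_norm _ _

lemma re_vecState_le (a b : H →L[ℂ] H) :
    |(vecState ξ (star a * b)).re| ≤ n2 ξ a * n2 ξ b :=
  (Complex.abs_re_le_norm _).trans (norm_vecState_le hξ a b)

/-- orthogonal sums -/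
lemma n2_sq_sum_of_orth {ι : Type*} [DecidableEq ι] (s : Finset ι) (a : ι → H →L[ℂ] H)
    (h : ∀ i ∈ s, ∀ j ∈ s, i ≠ j → vecState ξ (star (a i) * a j) = 0) :
    n2 ξ (∑ i ∈ s, a i) ^ 2 = ∑ i ∈ s, n2 ξ (a i) ^ 2 := by
  rw [n2_sq_eq hξ, star_sum, Finset.sum_mul, vecState_sum hξ, Complex.re_sum]
  refine Finset.sum_congr rfl fun i hi => ?_
  rw [Finset.mul_sum, vecState_sum hξ, Finset.sum_eq_single i
    (fun j hj hji => h i hi j hj (Ne.symm hji)) (fun hn => absurd hi hn), n2_sq_eq hξ]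

lemma re_vecState_nonneg {a : H →L[ℂ] H} (ha : 0 ≤ a) : 0 ≤ (vecState ξ a).re := by
  have hpos : ∀ i, 0 ≤ (⟪ξ i, a (ξ i)⟫_ℂ).re := fun i =>
    ((ContinuousLinearMap.nonneg_iff_isPositive a).1 ha).re_inner_nonneg_right (ξ i)
  have hs : Summable fun i => ⟪ξ i, a (ξ i)⟫_ℂ := by
    have := lp.summable_inner (𝕜 := ℂ) (emb hξ 1) (emb hξ a)
    exact this
  rw [vecState, ← Complex.reCLM_apply, Complex.reCLM.map_tsum hs]
  exact tsum_nonneg hpos

lemma re_vecState_mono {a b : H →L[ℂ] H} (h : a ≤ b) :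
    (vecState ξ a).re ≤ (vecState ξ b).re := by
  have := re_vecState_nonneg hξ (sub_nonneg.2 h)
  rw [vecState_sub hξ, Complex.sub_re] at this
  linarith

lemma vecState_proj {p : H →L[ℂ] H} (hp : IsStarProjection p) :
    vecState ξ p = (trP ξ p : ℂ) := by
  rw [trP, ← vecState_star_mul_self hξ, hp.isSelfAdjoint.star_eq, hp.isIdempotentElem.eq]

end Summable

lemma trP_nonneg (p : H →L[ℂ] H) : 0 ≤ trP ξ p := sq_nonneg _

namespace IsProj

variable {p q : H →L[ℂ] H}

lemma star_eq (hp : IsProj M p) : star p = p := hp.2.isSelfAdjoint.star_eq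

lemma mul_self (hp : IsProj M p) : p * p = p := hp.2.isIdempotentElem.eq

lemma zero : IsProj M (0 : H →L[ℂ] H) := ⟨zero_mem M, IsStarProjection.zero _⟩

lemma one : IsProj M (1 : H →L[ℂ] H) := ⟨one_mem M, IsStarProjection.one _⟩

lemma one_sub (hp : IsProj M p) : IsProj M (1 - p) := ⟨sub_mem (one_mem M) hp.1, hp.2.one_sub⟩

lemma mul_symm (hp : IsProj M p) (hq : IsProj M q) (h : q * p = q) : p * q = q := by
  rw [← hq.star_eq, ← hp.star_eq, ← star_mul, h]

lemma sub (hp : IsProj M p) (hq : IsProj M q) (h : q * p = q) : IsProj M (p - q) := by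
  refine ⟨sub_mem hp.1 hq.1, ?_, ?_⟩
  · rw [IsIdempotentElem, sub_mul, mul_sub, mul_sub, h, hp.mul_symm hq h, hp.mul_self,
      hq.mul_self, sub_self, sub_zero]
  · exact hp.2.isSelfAdjoint.sub hq.2.isSelfAdjoint

lemma norm_le_one (hp : IsProj M p) : ‖p‖ ≤ 1 := IsStarProjection.norm_le p hp.2

end IsProj

namespace IsPartition

variable {ι : Type*} [Fintype ι] {e : H →L[ℂ] H} {E : ι → (H →L[ℂ] H)}

lemma mul_cell (h : IsPartition M e E) (i : ι) : e * E i = E i := by
  rw [← h.total, Finset.sum_mul, Finset.sum_eq_single i (fun j _ hj => h.orth j i hj)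
    (fun hn => absurd (Finset.mem_univ i) hn), (h.proj i).mul_self]

lemma cell_mul (h : IsPartition M e E) (i : ι) : E i * e = E i := by
  rw [← h.total, Finset.mul_sum, Finset.sum_eq_single i (fun j _ hj => h.orth i j (Ne.symm hj))
    (fun hn => absurd (Finset.mem_univ i) hn), (h.proj i).mul_self]

lemma mul_eq [DecidableEq ι] (h : IsPartition M e E) (i j : ι) :
    E i * E j = if i = j then E i else 0 := by
  split_ifs with hij
  · subst hij; exact (h.proj i).mul_self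
  · exact h.orth i j hij

/-- a refinement of a partition is a partition -/
lemma refine' {κ : Type*} [Fintype κ] (h : IsPartition M e E) {G : ι → κ → (H →L[ℂ] H)}
    (hG : ∀ i, IsPartition M (E i) (G i)) :
    IsPartition M e (fun x : ι × κ => G x.1 x.2) where
  proj x := (hG x.1).proj x.2
  orth := by
    rintro ⟨i, a⟩ ⟨j, b⟩ hne
    by_cases hij : i = j
    · subst hij
      exact (hG i).orth a b fun hab => hne (by rw [hab])
    · simp only
      rw [← (hG i).cell_mul a, ← (hG j).mul_cell b, mul_assoc, ← mul_assoc (E i), h.orth i j hij,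
        zero_mul, mul_zero]
  total := by
    rw [Fintype.sum_prod_type]
    simp only [(hG _).total, h.total]

end IsPartition

namespace Setup

variable (T : Setup M ξ)
include T

lemma summable : Summable fun i => ‖ξ i‖ ^ 2 := T.trace.summable

lemma n2_one : n2 ξ (1 : H →L[ℂ] H) = 1 := by
  simp [n2, T.trace.one]

lemma n2_le_norm (a : H →L[ℂ] H) : n2 ξ a ≤ ‖a‖ := by
  simpa [T.n2_one] using n2_mul_le T.summable a 1

lemma vecState_one : vecState ξ (1 : H →L[ℂ] H) = 1 := by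
  rw [vecState_proj T.summable (IsStarProjection.one _), trP, T.n2_one]
  simp

lemma trP_one : trP ξ (1 : H →L[ℂ] H) = 1 := by simp [trP, T.n2_one]

lemma trP_zero : trP ξ (0 : H →L[ℂ] H) = 0 := by simp [trP, n2_zero T.summable]

lemma eq_zero_of_trP {p : H →L[ℂ] H} (hp : IsProj M p) (h : trP ξ p = 0) : p = 0 :=
  T.eq_zero_of_n2 hp.1 (pow_eq_zero_iff two_ne_zero |>.1 h)

lemma trP_sub {p q : H →L[ℂ] H} (hp : IsProj M p) (hq : IsProj M q) (h : q * p = q) :
    trP ξ (p - q) = trP ξ p - trP ξ q := by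
  have h1 := vecState_proj T.summable (hp.sub hq h).2
  rw [vecState_sub T.summable, vecState_proj T.summable hp.2, vecState_proj T.summable hq.2] at h1
  exact_mod_cast h1.symm

lemma trP_mono {p q : H →L[ℂ] H} (hp : IsProj M p) (hq : IsProj M q) (h : q * p = q) :
    trP ξ q ≤ trP ξ p := by
  have := T.trP_sub hp hq h
  have := trP_nonneg (ξ := ξ) (p - q)
  linarith

lemma trP_le_one {p : H →L[ℂ] H} (hp : IsProj M p) : trP ξ p ≤ 1 := by
  simpa [T.trP_one] using T.trP_mono IsProj.one hp (mul_one p)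

lemma trP_equiv {v : H →L[ℂ] H} (hv : v ∈ M) {p q : H →L[ℂ] H} (hp : IsProj M p)
    (hq : IsProj M q) (h1 : star v * v = p) (h2 : v * star v = q) : trP ξ p = trP ξ q := by
  have h := T.trace.comm (star v) (star_mem hv) v hv
  rw [h1, h2, vecState_proj T.summable hp.2, vecState_proj T.summable hq.2] at h
  exact_mod_cast h

lemma trP_partition {ι : Type*} [Fintype ι] {e : H →L[ℂ] H} (he : IsProj M e)
    {E : ι → (H →L[ℂ] H)} (h : IsPartition M e E) : trP ξ e = ∑ i, trP ξ (E i) := by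
  have h1 := vecState_proj T.summable he.2
  rw [← h.total, vecState_sum T.summable] at h1
  simp only [vecState_proj T.summable (h.proj _).2] at h1
  rw [h.total] at h1
  exact_mod_cast h1.symm

/-- blocks between two partitions are orthogonal -/
lemma n2_sq_blocks {ι κ : Type*} [Fintype ι] [Fintype κ] [DecidableEq ι] [DecidableEq κ]
    {e f : H →L[ℂ] H} {E : ι → (H →L[ℂ] H)} {F : κ → (H →L[ℂ] H)} (hE : IsPartition M e E)
    (hF : IsPartition M f F) (a : ι → κ → (H →L[ℂ] H)) (ha : ∀ i j, a i j ∈ M) :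
    n2 ξ (∑ x : ι × κ, E x.1 * a x.1 x.2 * F x.2) ^ 2 =
      ∑ x : ι × κ, n2 ξ (E x.1 * a x.1 x.2 * F x.2) ^ 2 := by
  refine n2_sq_sum_of_orth T.summable _ _ fun x _ y _ hxy => ?_
  have hm : ∀ z : ι × κ, E z.1 * a z.1 z.2 * F z.2 ∈ M := fun z =>
    mul_mem (mul_mem (hE.proj _).1 (ha _ _)) (hF.proj _).1
  by_cases h1 : x.1 = y.1
  · have h2 : x.2 ≠ y.2 := fun h2 => hxy (Prod.ext h1 h2)
    rw [T.trace.comm _ (star_mem (hm x)) _ (hm y), star_mul, (hF.proj _).star_eq, mul_assoc,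
      ← mul_assoc (F y.2), hF.orth _ _ (Ne.symm h2), zero_mul, mul_zero]
    simp [vecState]
  · rw [star_mul, star_mul, (hE.proj _).star_eq, mul_assoc, mul_assoc, ← mul_assoc (E x.1),
      ← mul_assoc (E x.1), hE.orth _ _ h1, zero_mul, zero_mul, mul_zero, mul_zero]
    simp [vecState]

lemma n2_sq_pinch {ι : Type*} [Fintype ι] [DecidableEq ι] {e : H →L[ℂ] H}
    {E : ι → (H →L[ℂ] H)} (hE : IsPartition M e E) (a : ι → (H →L[ℂ] H)) (ha : ∀ i, a i ∈ M) :
    n2 ξ (∑ i, E i * a i * E i) ^ 2 = ∑ i, n2 ξ (E i * a i * E i) ^ 2 := by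
  refine n2_sq_sum_of_orth T.summable _ _ fun i _ j _ hij => ?_
  simp only [star_mul, (hE.proj _).star_eq, mul_assoc]
  rw [← mul_assoc (E i) (E j), hE.orth _ _ hij]
  simp [vecState]

/-- compressing to the blocks of a partition decreases the trace norm -/
lemma sum_n2_sq_blocks_le {ι : Type*} [Fintype ι] [DecidableEq ι] {e : H →L[ℂ] H}
    {E : ι → (H →L[ℂ] H)} (he : IsProj M e) (hE : IsPartition M e E) {a : H →L[ℂ] H}
    (ha : a ∈ M) : ∑ i, n2 ξ (E i * a * E i) ^ 2 ≤ n2 ξ a ^ 2 := by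
  have h1 : ∑ i, n2 ξ (E i * a * E i) ^ 2 ≤ ∑ x : ι × ι, n2 ξ (E x.1 * a * E x.2) ^ 2 := by
    rw [Fintype.sum_prod_type]
    exact Finset.sum_le_sum fun i _ => Finset.single_le_sum
      (f := fun j => n2 ξ (E i * a * E j) ^ 2) (fun j _ => sq_nonneg _) (Finset.mem_univ i)
  rw [← T.n2_sq_blocks hE hE (fun _ _ => a) fun _ _ => ha] at h1
  refine h1.trans (pow_le_pow_left₀ (n2_nonneg _) ?_ 2)
  have h2 : ∑ x : ι × ι, E x.1 * a * E x.2 = e * a * e := by
    rw [Fintype.sum_prod_type, ← hE.total]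
    simp only [Finset.sum_mul, Finset.mul_sum]
    exact Finset.sum_comm
  rw [h2]
  calc n2 ξ (e * a * e) ≤ n2 ξ (e * a) * ‖e‖ := T.n2_mul_le' (mul_mem he.1 ha) he.1
    _ ≤ n2 ξ (e * a) * 1 := by gcongr; exacts [n2_nonneg _, he.norm_le_one]
    _ ≤ ‖e‖ * n2 ξ a := by rw [mul_one]; exact n2_mul_le T.summable _ _
    _ ≤ 1 * n2 ξ a := by gcongr; exacts [n2_nonneg _, he.norm_le_one]
    _ = n2 ξ a := one_mul _

end Setup

end Vale.Agent.P085
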