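import Vale.Agent.P085.Toolkit.Trace
import Vale.Agent.P078.General.Basic

/-!
# Spectral cuts, polar parts, and finite-spectrum approximation
-/

namespace Vale.Agent.P085.Toolkit

open ComplexInnerProductSpace

universe u

variable {H : Type u} [NormedAddCommGroup H] [InnerProductSpace ℂ H] [CompleteSpace H]
variable {M : VonNeumannAlgebra H} {ξ : ℕ → H}

open Vale.Agent.P078 Vale.Agent.P078.General

lemma smul_mem (M : VonNeumannAlgebra H) (c : ℂ) {a : H →L[ℂ] H} (ha : a ∈ M) : c • a ∈ M :=
  M.toStarSubalgebra.smul_mem ha c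

/-- the spectral cut of a positive element of `M` lies in `M` -/
lemma exists_cut_mem {T : H →L[ℂ] H} (hTM : T ∈ M) (hT : IsSelfAdjoint T)
    (hT0 : ∀ v, 0 ≤ (⟪T v, v⟫).re) {t : ℝ} (ht : 0 < t) :
    ∃ s, IsProj M s ∧ (∀ y, Commute T y → Commute T (star y) → y * s = s * y) ∧
      (∀ v, t * ‖s v‖ ^ 2 ≤ (⟪T v, v⟫).re) ∧
      (∀ v, s v = 0 → (⟪T v, v⟫).re ≤ t * ‖v‖ ^ 2) := by
  obtain ⟨s, hs, hc, hlow, hup, -⟩ := exists_cut hT hT0 ht
  refine ⟨s, ⟨mem_vna_of_commute fun y hy => ?_, hs⟩, hc, hlow, hup⟩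
  refine hc y (commute_of_mem_centralizer hTM hy).symm
    (commute_of_mem_centralizer hTM (Set.star_mem_centralizer' ?_ hy)).symm
  exact fun z hz => star_mem hz

lemma norm_le_of_form {A : H →L[ℂ] H} (hA : IsSelfAdjoint A) {C : ℝ} (hC : 0 ≤ C)
    (h : ∀ v, |(⟪A v, v⟫).re| ≤ C * ‖v‖ ^ 2) : ‖A‖ ≤ C := by
  refine ContinuousLinearMap.opNorm_le_of_re_inner_le hC fun v w hv hw => ?_
  have h1 := (abs_le.1 (h (v + w))).2
  have h2 := (abs_le.1 (h (v - w))).1
  have hs : (⟪A w, v⟫).re = (⟪A v, w⟫).re := by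
    rw [sa_inner hA, ← inner_conj_symm, Complex.conj_re]
  have par : ‖v + w‖ ^ 2 + ‖v - w‖ ^ 2 = 4 := by
    rw [@norm_add_sq ℂ, @norm_sub_sq ℂ, hv, hw]; ring
  simp only [map_add, map_sub, inner_add_left, inner_add_right, inner_sub_left, inner_sub_right,
    Complex.add_re, Complex.sub_re, hs] at h1 h2
  change (⟪A v, w⟫).re ≤ C
  nlinarith

/-- A finite-spectrum approximation whose projections commute with the commutant of `h`. -/
theorem saApprox_strong {e h : H →L[ℂ] H} (he : IsProj M e) (hM : h ∈ M) (hsa : IsSelfAdjoint h)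
    (heh : e * h = h) {θ : ℝ} (hθ : 0 < θ) :
    ∃ (m : ℕ) (c : Fin m → ℝ) (E : Fin m → (H →L[ℂ] H)), IsPartition M e E ∧
      (∀ i, |c i| ≤ ‖h‖) ∧ (∀ i y, Commute h y → Commute h (star y) → Commute e y →
        y * E i = E i * y) ∧ ‖h - ∑ i, (c i : ℂ) • E i‖ ≤ θ := by
  have hhe : h * e = h := by
    have := congrArg star heh
    rwa [star_mul, hsa.star_eq, he.2.isSelfAdjoint.star_eq] at this
  set R := ‖h‖ with hRdef
  have hR : 0 ≤ R := norm_nonneg _
  set T : H →L[ℂ] H := h + (R : ℂ) • 1 with hTdef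
  have hT : IsSelfAdjoint T := by
    rw [IsSelfAdjoint, hTdef, star_add, hsa.star_eq, star_smul, star_one, Complex.star_def,
      Complex.conj_ofReal]
  have hTM : T ∈ M := add_mem hM (smul_mem M _ (one_mem M))
  have hTv : ∀ v, (⟪T v, v⟫).re = (⟪h v, v⟫).re + R * ‖v‖ ^ 2 := fun v => by
    rw [hTdef, add_apply, smul_apply, one_apply_eq_self, inner_add_left, inner_smul_left,
      Complex.conj_ofReal, inner_self_eq_norm_sq_to_K, Complex.add_re]
    congr 1
    rw [Complex.re_ofReal_mul]
    norm_cast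
  have hb : ∀ v, |(⟪h v, v⟫).re| ≤ R * ‖v‖ ^ 2 := fun v => by
    refine (Complex.abs_re_le_norm _).trans ((norm_inner_le_norm _ _).trans ?_)
    rw [sq, ← mul_assoc]
    exact mul_le_mul_of_nonneg_right (h.le_opNorm v) (norm_nonneg v)
  have hT0 : ∀ v, 0 ≤ (⟪T v, v⟫).re := fun v => by rw [hTv]; linarith [(abs_le.1 (hb v)).1]
  set m := ⌊2 * R / θ⌋₊ + 1 with hm
  have hcut : ∀ j : ℕ, ∃ s, IsProj M s ∧
      (∀ y, Commute T y → Commute T (star y) → y * s = s * y) ∧
      (1 ≤ j → ∀ v, j * θ * ‖s v‖ ^ 2 ≤ (⟪T v, v⟫).re) ∧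
      (1 ≤ j → ∀ v, s v = 0 → (⟪T v, v⟫).re ≤ j * θ * ‖v‖ ^ 2) := fun j => by
    rcases Nat.eq_zero_or_pos j with hj | hj
    · exact ⟨1, ⟨one_mem M, .one _⟩, fun y _ _ => by rw [mul_one, one_mul],
        fun h => absurd h (by omega), fun h => absurd h (by omega)⟩
    · obtain ⟨s, h1, h2, h3, h4⟩ := exists_cut_mem hTM hT hT0
        (t := j * θ) (by positivity)
      exact ⟨s, h1, h2, fun _ => h3, fun _ => h4⟩
  choose s hs hsc hlow hup using hcut
  have hcomm : ∀ {y}, Commute h y → Commute T y := fun {y} hy => by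
    rw [hTdef]; exact hy.add_left ((Commute.one_left y).smul_left _)
  have hse : ∀ j, e * s j = s j * e := fun j => hsc j e (hcomm (hhe.trans heh.symm))
    (hcomm (by rw [he.2.isSelfAdjoint.star_eq]; exact hhe.trans heh.symm))
  have hTs : ∀ j, T * s j = s j * T := fun j =>
    hsc j T (Commute.refl _) (by rw [hT.star_eq])
  have hss : ∀ i j, s i * s j = s j * s i := fun i j =>
    hsc j (s i) (hTs i) (by rw [(hs i).2.isSelfAdjoint.star_eq]; exact hTs i)
  let r : ℕ → (H →L[ℂ] H) := fun j => Nat.rec e (fun k a => a * s (k + 1)) j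
  have hr0 : r 0 = e := rfl
  have hrs : ∀ j, r (j + 1) = r j * s (j + 1) := fun j => rfl
  have hrsc : ∀ j i, r j * s i = s i * r j := fun j i => by
    induction j with
    | zero => exact hse i
    | succ j ih => rw [hrs, mul_assoc, hss, ← mul_assoc, ih, mul_assoc]
  have hrp : ∀ j, IsProj M (r j) := fun j => by
    induction j with
    | zero => exact he
    | succ j ih =>
      exact ⟨mul_mem ih.1 (hs _).1, ih.2.mul (hs _).2 (hrsc j _)⟩
  have hry : ∀ j y, Commute h y → Commute h (star y) → Commute e y → y * r j = r j * y :=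
    fun j y h1 h2 h3 => by
    induction j with
    | zero => exact h3.symm.eq
    | succ j ih => rw [hrs, ← mul_assoc, ih, mul_assoc, hsc _ y (hcomm h1) (hcomm h2), mul_assoc]
  have hrle : ∀ i j, i ≤ j → r i * r j = r j := fun i j hij => by
    induction j, hij using Nat.le_induction with
    | base => exact (hrp i).2.isIdempotentElem.eq
    | succ j _ ih => rw [hrs, ← mul_assoc, ih]
  let r' : ℕ → (H →L[ℂ] H) := fun j => if j < m then r j else 0
  have hr'p : ∀ j, IsProj M (r' j) := fun j => by
    simp only [r']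
    split
    · exact hrp j
    · exact ⟨zero_mem M, .zero _⟩
  have hr'le : ∀ i j, i ≤ j → r' i * r' j = r' j := fun i j hij => by
    simp only [r']
    split_ifs <;> first | exact hrle i j hij | omega | simp
  have hr'ge : ∀ i j, i ≤ j → r' j * r' i = r' j := fun i j hij => by
    have := congrArg star (hr'le i j hij)
    rwa [star_mul, (hr'p i).2.isSelfAdjoint.star_eq, (hr'p j).2.isSelfAdjoint.star_eq] at this
  let E : Fin m → (H →L[ℂ] H) := fun i => r' i.1 - r' (i.1 + 1)
  have hEp : ∀ i, IsProj M (E i) := fun i => by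
    refine ⟨sub_mem (hr'p _).1 (hr'p _).1, ?_, (hr'p _).2.isSelfAdjoint.sub (hr'p _).2.isSelfAdjoint⟩
    change E i * E i = E i
    simp only [E, sub_mul, mul_sub, hr'le _ _ (Nat.le_succ i.1), hr'ge _ _ (Nat.le_succ i.1),
      (hr'p _).2.isIdempotentElem.eq]
    abel
  have hEo : ∀ i j : Fin m, i.1 < j.1 → E i * E j = 0 ∧ E j * E i = 0 := fun i j hij => by
    constructor
    · simp only [E, sub_mul, mul_sub, hr'le i.1 j.1 (by omega), hr'le i.1 (j.1 + 1) (by omega),
        hr'le (i.1 + 1) j.1 (by omega), hr'le (i.1 + 1) (j.1 + 1) (by omega)]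
      abel
    · simp only [E, sub_mul, mul_sub, hr'ge i.1 j.1 (by omega), hr'ge i.1 (j.1 + 1) (by omega),
        hr'ge (i.1 + 1) j.1 (by omega), hr'ge (i.1 + 1) (j.1 + 1) (by omega)]
      abel
  have hEP : IsPartition M e E := by
    refine ⟨hEp, fun i j hij => ?_, ?_⟩
    · rcases lt_or_gt_of_ne (fun h => hij (Fin.ext h)) with h | h
      exacts [(hEo i j h).1, (hEo j i h).2]
    · simp only [E]
      rw [Fin.sum_univ_eq_sum_range (fun i => r' i - r' (i + 1)), Finset.sum_range_sub']
      simp [r', hm, hr0]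
  have hmθ : 2 * R < m * θ := by
    have := Nat.lt_floor_add_one (2 * R / θ)
    rw [div_lt_iff₀ hθ] at this
    rw [hm]; push_cast; linarith
  have hmθ' : (m - 1 : ℝ) * θ ≤ 2 * R := by
    have := Nat.floor_le (show 0 ≤ 2 * R / θ by positivity)
    rw [le_div_iff₀ hθ] at this
    rw [hm]; push_cast; linarith
  have hfix : ∀ {i : Fin m} {v}, E i v = v → r i.1 v = v := fun {i v} hv => by
    have e1 : r i.1 * E i = E i := by
      have h1 := hr'le i.1 i.1 le_rfl
      have h2 := hr'le i.1 (i.1 + 1) (Nat.le_succ _)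
      simp only [r', if_pos i.2] at h1 h2
      simp only [E, r', if_pos i.2]
      rw [mul_sub, h1, h2]
    have := congrArg (fun f : H →L[ℂ] H => f v) e1
    change r i.1 (E i v) = E i v at this
    rwa [hv] at this
  have hform : ∀ (i : Fin m) v, E i v = v →
      |(⟪h v, v⟫).re - (i.1 * θ - R) * ‖v‖ ^ 2| ≤ θ * ‖v‖ ^ 2 := by
    intro i v hv
    have hlo : (i.1 : ℝ) * θ * ‖v‖ ^ 2 ≤ (⟪T v, v⟫).re := by
      rcases Nat.eq_zero_or_pos i.1 with hi | hi
      · rw [hi]; simpa using hT0 v
      · have hsv : s i.1 v = v := by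
          have h1 := hfix hv
          obtain ⟨k, hk⟩ : ∃ k, i.1 = k + 1 := ⟨i.1 - 1, by omega⟩
          rw [hk] at h1 ⊢
          rw [hrs] at h1
          change r k (s (k + 1) v) = v at h1
          have h2 : (s (k + 1) * (r k * s (k + 1))) v = (r k * s (k + 1)) v := by
            rw [← mul_assoc, ← hrsc, mul_assoc, (hs _).2.isIdempotentElem.eq]
          change s (k + 1) (r k (s (k + 1) v)) = r k (s (k + 1) v) at h2
          rwa [h1] at h2
        have := hlow i.1 hi v
        rwa [hsv] at this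
    have hhi : (⟪T v, v⟫).re ≤ ((i.1 : ℝ) + 1) * θ * ‖v‖ ^ 2 := by
      by_cases hi : i.1 + 1 < m
      · have hsv : s (i.1 + 1) v = 0 := by
          have h1 : E i v = r i.1 v - r i.1 (s (i.1 + 1) v) := by
            simp only [E, r', if_pos i.2, if_pos hi, hrs]; rfl
          rw [hv, hfix hv] at h1
          have h2 : r i.1 (s (i.1 + 1) v) = s (i.1 + 1) v := by
            have := congrArg (fun f : H →L[ℂ] H => f v) (hrsc i.1 (i.1 + 1))
            change r i.1 (s (i.1 + 1) v) = s (i.1 + 1) (r i.1 v) at this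
            rw [this, hfix hv]
          rw [h2] at h1
          simpa using h1.symm
        have := hup (i.1 + 1) (by omega) v hsv
        exact_mod_cast this
      · have hi' : (m : ℝ) ≤ (i.1 : ℝ) + 1 := by exact_mod_cast (show m ≤ i.1 + 1 by omega)
        have h1 := (abs_le.1 (hb v)).2
        rw [hTv]
        nlinarith [sq_nonneg ‖v‖, mul_nonneg (sq_nonneg ‖v‖) (sub_nonneg.2 hi')]
    rw [hTv] at hlo hhi
    rw [abs_le]; constructor <;> nlinarith
  refine ⟨m, fun i => i.1 * θ - R, E, hEP, fun i => ?_, fun i y h1 h2 h3 => ?_, ?_⟩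
  · have hi : (i.1 : ℝ) + 1 ≤ m := by exact_mod_cast i.2
    have : (0 : ℝ) ≤ i.1 * θ := by positivity
    rw [abs_le]; constructor <;> nlinarith
  · have : ∀ j, y * r' j = r' j * y := fun j => by
      simp only [r']
      split_ifs
      · exact hry j y h1 h2 h3
      · simp
    simp only [E, mul_sub, sub_mul, this]
  · set A := h - ∑ i : Fin m, ((i.1 * θ - R : ℝ) : ℂ) • E i with hA
    have hEh : ∀ i, h * E i = E i * h := fun i => by
      have : ∀ j, h * r' j = r' j * h := fun j => by
        simp only [r']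
        split_ifs
        · exact hry j h (Commute.refl _) (by rw [hsa.star_eq]) (heh.trans hhe.symm)
        · simp
      simp only [E, mul_sub, sub_mul, this]
    have hAsa : IsSelfAdjoint A := by
      rw [IsSelfAdjoint, hA, star_sub, star_sum, hsa.star_eq]
      refine congrArg _ (Finset.sum_congr rfl fun i _ => ?_)
      rw [star_smul, (hEp i).2.isSelfAdjoint.star_eq, Complex.star_def, Complex.conj_ofReal]
    refine norm_le_of_form hAsa hθ.le fun v => ?_
    have hhv : (⟪h v, v⟫).re = ∑ i, (⟪h (E i v), E i v⟫).re := by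
      conv_lhs => rw [← hhe]
      rw [← hEP.total, Finset.mul_sum, sum_apply, sum_inner, Complex.re_sum]
      refine Finset.sum_congr rfl fun i _ => ?_
      change (⟪h (E i v), v⟫).re = _
      have : h (E i v) = E i (h (E i v)) := by
        have e1 : (E i * (h * E i)) = h * E i := by
          rw [hEh i, ← mul_assoc, (hEp i).2.isIdempotentElem.eq]
        exact (congrArg (fun f : H →L[ℂ] H => f v) e1).symm
      conv_lhs => rw [this, sa_inner (hEp i).2.isSelfAdjoint]
    have hev : ∀ i, ⟪E i v, v⟫ = ((‖E i v‖ ^ 2 : ℝ) : ℂ) := fun i => by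
      rw [← proj_apply_apply (hEp i).2, sa_inner (hEp i).2.isSelfAdjoint,
        proj_apply_apply (hEp i).2, inner_self_eq_norm_sq_to_K]
      norm_cast
    have hAv : (⟪A v, v⟫).re
        = ∑ i : Fin m, ((⟪h (E i v), E i v⟫).re - (i.1 * θ - R) * ‖E i v‖ ^ 2) := by
      rw [hA, sub_apply, inner_sub_left, Complex.sub_re, hhv, sum_apply,
        sum_inner, Complex.re_sum, Finset.sum_sub_distrib]
      refine congrArg _ (Finset.sum_congr rfl fun i _ => ?_)
      rw [smul_apply, inner_smul_left, Complex.conj_ofReal, hev, ← Complex.ofReal_mul,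
        Complex.ofReal_re]
    rw [hAv]
    refine (Finset.abs_sum_le_sum_abs _ _).trans ?_
    refine (Finset.sum_le_sum fun i _ => hform i _ (proj_apply_apply (hEp i).2 v)).trans ?_
    rw [← Finset.mul_sum]
    refine mul_le_mul_of_nonneg_left (le_of_eq_of_le ?_ (pow_le_pow_left₀ (norm_nonneg _)
      (proj_norm_le he.2 v) 2)) hθ.le
    have h1 : ⟪e v, v⟫ = ∑ i, ⟪E i v, v⟫ := by
      rw [← hEP.total, sum_apply, sum_inner]
    have h2 : ⟪e v, v⟫ = ((‖e v‖ ^ 2 : ℝ) : ℂ) := by
      rw [← proj_apply_apply he.2, sa_inner he.2.isSelfAdjoint, proj_apply_apply he.2,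
        inner_self_eq_norm_sq_to_K]
      norm_cast
    simp only [h2, hev] at h1
    exact_mod_cast h1.symm

/-- the partial isometry part of a nonzero element -/
lemma exists_polar_piece {x : H →L[ℂ] H} (hx : x ∈ M) (hx0 : x ≠ 0) :
    ∃ v ∈ M, v ≠ 0 ∧ IsStarProjection (star v * v) ∧ v * (star v * v) = v ∧
      (∀ p, IsStarProjection p → x * p = x → v * p = v) ∧
      (∀ q : H →L[ℂ] H, q * x = x → q * v = v) := by
  have hxn : 0 < ‖x‖ := norm_pos_iff.2 hx0
  set t := ‖x‖ ^ 2 / 4 with htdef
  have ht : 0 < t := by positivity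
  set S : H →L[ℂ] H := star x * x with hSdef
  have hS : IsSelfAdjoint S := IsSelfAdjoint.star_mul_self x
  have hSv : ∀ v, (⟪S v, v⟫).re = ‖x v‖ ^ 2 := fun v => by
    change (⟪star x (x v), v⟫).re = _
    rw [ContinuousLinearMap.star_eq_adjoint, ContinuousLinearMap.adjoint_inner_left,
      inner_self_eq_norm_sq_to_K]
    norm_cast
  obtain ⟨s, hs, hsc, hlow, hup⟩ := exists_cut_mem (mul_mem (star_mem hx) hx) hS
    (fun v => by rw [hSv]; positivity) ht
  have hsx : ∀ v, x v = 0 → s v = 0 := fun v hv => by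
    have := hlow v
    rw [hSv, hv, norm_zero] at this
    have : ‖s v‖ ^ 2 ≤ 0 := by nlinarith
    simpa using le_antisymm this (sq_nonneg _)
  have hs0 : s ≠ 0 := by
    intro h0
    have hx2 : ‖x‖ ≤ ‖x‖ / 2 := by
      refine x.opNorm_le_bound (by positivity) fun v => ?_
      have := hup v (by simp [h0])
      rw [hSv, htdef] at this
      nlinarith [norm_nonneg (x v), norm_nonneg v, mul_nonneg hxn.le (norm_nonneg v)]
    linarith
  -- the inverse square root, cut off below `t`
  set g : H →L[ℂ] H := cfc (fun z : ℝ => (Real.sqrt (max z t))⁻¹) S with hg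
  have hgc : ContinuousOn (fun z : ℝ => (Real.sqrt (max z t))⁻¹) (spectrum ℝ S) :=
    ((by fun_prop : Continuous fun z : ℝ => Real.sqrt (max z t)).continuousOn).inv₀ fun z _ =>
      (Real.sqrt_pos.2 (lt_max_of_lt_right ht)).ne'
  have hgs : IsSelfAdjoint g := cfc_predicate _ S
  have hgM : g ∈ M := by
    refine mem_vna_of_commute fun y hy => ?_
    have : Commute S y := (commute_of_mem_centralizer (mul_mem (star_mem hx) hx) hy).symm
    exact (this.cfc_real _).eq.symm
  have hgS : S * g = g * S := ((Commute.refl S).cfc_real _).eq.symm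
  have hgs' : s * g = g * s := by
    have h1 : S * s = s * S := hsc S (Commute.refl S) (by rw [hS.star_eq])
    have h2 : Commute S s := h1
    exact (h2.cfc_real _).eq.symm
  -- on the cut, `g S g` acts as the identity
  have hkey : g * S * g * s = s := by
    have hgc' : Continuous fun z : ℝ => (Real.sqrt (max z t))⁻¹ :=
      (by fun_prop : Continuous fun z : ℝ => Real.sqrt (max z t)).inv₀ fun z =>
        (Real.sqrt_pos.2 (lt_max_of_lt_right ht)).ne'
    set W : H →L[ℂ] H := cfc (fun z : ℝ => max (t - z) 0) S with hW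
    set K : H →L[ℂ] H := cfc (fun z : ℝ => max (t - z) 0 * Real.sqrt (max (t - z) 0)) S with hK
    set J : H →L[ℂ] H := cfc (fun z : ℝ => Real.sqrt (max (t - z) 0)) S with hJ
    have hWs : IsSelfAdjoint W := cfc_predicate _ S
    have hKs : IsSelfAdjoint K := cfc_predicate _ S
    have hgSg : g * S * g = 1 - t⁻¹ • W := by
      have e1 : g * S * g = cfc (fun z : ℝ => (Real.sqrt (max z t))⁻¹ * z *
          (Real.sqrt (max z t))⁻¹) S := by
        rw [cfc_mul (fun z : ℝ => (Real.sqrt (max z t))⁻¹ * z) (fun z => (Real.sqrt (max z t))⁻¹) S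
          (hgc.mul continuousOn_id) hgc,
          cfc_mul (fun z : ℝ => (Real.sqrt (max z t))⁻¹) (fun z => z) S hgc, cfc_id' ℝ S]
      have e2 : 1 - t⁻¹ • W = cfc (fun z : ℝ => 1 - t⁻¹ * max (t - z) 0) S := by
        rw [cfc_sub (fun _ : ℝ => 1) (fun z => t⁻¹ * max (t - z) 0) S, cfc_const_one ℝ S,
          cfc_const_mul t⁻¹ (fun z : ℝ => max (t - z) 0) S]
      rw [e1, e2]
      refine cfc_congr fun z _ => ?_
      have hp : 0 < max z t := lt_max_of_lt_right ht
      rw [mul_comm _ z, mul_assoc, ← mul_inv, Real.mul_self_sqrt hp.le]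
      rcases le_total t z with h | h
      · rw [max_eq_left h, max_eq_right (sub_nonpos.2 h), mul_zero, sub_zero,
          mul_inv_cancel₀ (by linarith)]
      · rw [max_eq_right h, max_eq_left (sub_nonneg.2 h)]
        field_simp
        ring
    have hWv : ∀ v, s v = v → W v = 0 := by
      intro v hv
      have hsW : s (W v) = W v := by
        have h2 : Commute S s := hsc S (Commute.refl S) (by rw [hS.star_eq])
        have h3 : W * s = s * W := (h2.cfc_real _).eq
        have := congrArg (fun f : H →L[ℂ] H => f v) h3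
        change W (s v) = s (W v) at this
        rw [hv] at this
        exact this.symm
      have h1 := hlow (W v)
      rw [hsW] at h1
      have e : W * S * W - t • (W * W) = -(K * K) := by
        have e1 : W * S * W = cfc (fun z : ℝ => max (t - z) 0 * z * max (t - z) 0) S := by
          rw [cfc_mul (fun z : ℝ => max (t - z) 0 * z) (fun z => max (t - z) 0) S,
            cfc_mul (fun z : ℝ => max (t - z) 0) (fun z => z) S, cfc_id' ℝ S]
        have e2 : t • (W * W) = cfc (fun z : ℝ => t * (max (t - z) 0 * max (t - z) 0)) S := by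
          rw [cfc_const_mul t (fun z : ℝ => max (t - z) 0 * max (t - z) 0) S,
            cfc_mul (fun z : ℝ => max (t - z) 0) (fun z => max (t - z) 0) S]
        have e3 : -(K * K) = cfc (fun z : ℝ => -(max (t - z) 0 * Real.sqrt (max (t - z) 0) *
            (max (t - z) 0 * Real.sqrt (max (t - z) 0)))) S := by
          rw [cfc_neg (fun z : ℝ => max (t - z) 0 * Real.sqrt (max (t - z) 0) *
            (max (t - z) 0 * Real.sqrt (max (t - z) 0))) S,
            cfc_mul (fun z : ℝ => max (t - z) 0 * Real.sqrt (max (t - z) 0))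
              (fun z => max (t - z) 0 * Real.sqrt (max (t - z) 0)) S]
        rw [e1, e2, e3, ← cfc_sub (fun z : ℝ => max (t - z) 0 * z * max (t - z) 0)
          (fun z : ℝ => t * (max (t - z) 0 * max (t - z) 0)) S]
        refine cfc_congr fun z _ => ?_
        rcases le_total t z with h | h
        · simp [max_eq_right (sub_nonpos.2 h)]
        · simp only [max_eq_left (sub_nonneg.2 h)]
          have := Real.mul_self_sqrt (sub_nonneg.2 h)
          linear_combination (t - z) ^ 2 * this
      have h2 : (⟪(W * S * W - t • (W * W)) v, v⟫).re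
          = (⟪S (W v), W v⟫).re - t * ‖W v‖ ^ 2 := by
        rw [sub_apply, smul_apply, inner_sub_left, inner_smul_left_eq_smul, Complex.sub_re,
          Complex.smul_re, smul_eq_mul]
        change (⟪W (S (W v)), v⟫).re - t * (⟪W (W v), v⟫).re = _
        rw [sa_inner hWs, sa_inner hWs, inner_self_eq_norm_sq_to_K]
        norm_cast
      have h3 : (⟪(-(K * K)) v, v⟫).re = -‖K v‖ ^ 2 := by
        rw [neg_apply, inner_neg_left, Complex.neg_re]
        change -(⟪K (K v), v⟫).re = _
        rw [sa_inner hKs, inner_self_eq_norm_sq_to_K]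
        norm_cast
      rw [e, h3] at h2
      have h4 : K v = 0 := by
        rw [← norm_eq_zero, ← sq_eq_zero_iff]
        exact le_antisymm (by linarith) (sq_nonneg _)
      have h5 : W * W = J * K := by
        rw [hW, hJ, hK, ← cfc_mul (fun z : ℝ => max (t - z) 0) (fun z => max (t - z) 0) S,
          ← cfc_mul (fun z : ℝ => Real.sqrt (max (t - z) 0))
            (fun z => max (t - z) 0 * Real.sqrt (max (t - z) 0)) S]
        refine cfc_congr fun z _ => ?_
        have := Real.mul_self_sqrt (le_max_right (t - z) 0)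
        linear_combination (-(max (t - z) 0)) * this
      have h6 : W (W v) = 0 := by
        have := congrArg (fun f : H →L[ℂ] H => f v) h5
        change W (W v) = J (K v) at this
        rw [this, h4, map_zero]
      rw [← norm_eq_zero, ← sq_eq_zero_iff, @norm_sq_eq_re_inner ℂ, sa_inner hWs, h6]
      simp
    rw [hgSg]
    refine ContinuousLinearMap.ext fun v => ?_
    change s v - t⁻¹ • W (s v) = s v
    rw [hWv (s v) (proj_apply_apply hs.2 v), smul_zero, sub_zero]
  refine ⟨x * g * s, mul_mem (mul_mem hx hgM) hs.1, ?_, ?_, ?_, ?_, ?_⟩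
  all_goals
    have hvv : star (x * g * s) * (x * g * s) = s := by
      simp only [star_mul, hgs.star_eq, hs.2.isSelfAdjoint.star_eq]
      calc s * (g * star x) * (x * g * s) = s * (g * S * g * s) := by
            simp only [hSdef, mul_assoc]
        _ = s := by rw [hkey, hs.2.isIdempotentElem.eq]
  · intro h0
    exact hs0 (by rw [← hvv, h0, mul_zero])
  · rw [hvv]; exact hs.2
  · rw [hvv, mul_assoc (x * g), hs.2.isIdempotentElem.eq]
  · intro p hp hxp
    have hsp : s * p = s := by
      refine ContinuousLinearMap.ext fun v => ?_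
      have : s (v - p v) = 0 := hsx _ (by
        rw [map_sub, ← mul_apply_eq_comp, hxp, sub_self])
      rw [map_sub, sub_eq_zero] at this
      exact this.symm
    rw [mul_assoc (x * g), hsp]
  · intro q hqx
    simp only [← mul_assoc, hqx]

theorem saApproxOut (M : VonNeumannAlgebra H) : SaApproxOut M := by
  intro e he h hM hsa heh θ hθ
  obtain ⟨m, c, E, h1, h2, h3, h4⟩ := saApprox_strong he hM hsa heh hθ
  have hhe : h * e = h := by
    have := congrArg star heh
    rwa [star_mul, hsa.star_eq, he.2.isSelfAdjoint.star_eq] at this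
  exact ⟨m, c, E, h1, h2, fun i => (h3 i h (Commute.refl h) (by rw [hsa.star_eq])
    (heh.trans hhe.symm)).symm, h4⟩

end Vale.Agent.P085.Toolkit
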