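import Vale.Agent.P085.Toolkit.Limits
import Vale.Agent.P085.Toolkit.Spectral
import Vale.Agent.P085.Interfaces2

/-!
# Comparison of projections, subprojections of given trace, partitions
-/

namespace Vale.Agent.P085.Toolkit

open ComplexInnerProductSpace
open Vale.Agent.P078 Vale.Agent.P078.General

universe u

variable {H : Type u} [NormedAddCommGroup H] [InnerProductSpace ℂ H] [CompleteSpace H]
variable {M : VonNeumannAlgebra H} {ξ : ℕ → H}

lemma trP_add (T : Setup M ξ) {p q : H →L[ℂ] H} (hp : IsProj M p) (hq : IsProj M q)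
    (h : p * q = 0) : trP ξ (p + q) = trP ξ p + trP ξ q := by
  have h1 : q * p = 0 := by
    have := congrArg star h
    rwa [star_mul, hp.star_eq, hq.star_eq, star_zero] at this
  have hs : IsProj M (p + q) := by
    refine ⟨add_mem hp.1 hq.1, ?_, hp.2.isSelfAdjoint.add hq.2.isSelfAdjoint⟩
    change (p + q) * (p + q) = p + q
    simp [add_mul, mul_add, h, h1, hp.mul_self, hq.mul_self]
  have := T.trP_sub hs hp (by rw [mul_add, hp.mul_self, h, add_zero])
  rw [add_sub_cancel_left] at this
  linarith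

/-- In a factor, two nonzero projections have nonzero equivalent subprojections. -/
lemma exists_link (T : Setup M ξ) {p q : H →L[ℂ] H} (hp : IsProj M p) (hq : IsProj M q)
    (hp0 : p ≠ 0) (hq0 : q ≠ 0) :
    ∃ v ∈ M, v ≠ 0 ∧ IsStarProjection (star v * v) ∧ v * (star v * v) = v ∧ v * p = v ∧ q * v = v := by
  obtain ⟨x, hx, hx0⟩ : ∃ m ∈ M, q * m * p ≠ 0 := by
    by_contra hc
    push Not at hc
    let S : Set H := {w | ∃ m ∈ M, ∃ v, w = m (p v)}
    let K : Submodule ℂ H := (Submodule.span ℂ S).topologicalClosure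
    have : CompleteSpace K := Submodule.topologicalClosure.completeSpace _
    have hinv : ∀ y : H →L[ℂ] H, (∀ w ∈ S, y w ∈ K) → ∀ k ∈ K, y k ∈ K := fun y hy k hk =>
      Submodule.topologicalClosure_minimal (t := Submodule.comap (y : H →ₗ[ℂ] H) K) _
        (Submodule.span_le.2 fun w hw => hy w hw)
        ((Submodule.isClosed_topologicalClosure _).preimage y.continuous) hk
    have hS : ∀ w, w ∈ S → w ∈ K := fun w hw =>
      Submodule.le_topologicalClosure _ (Submodule.subset_span hw)
    have hM : ∀ y ∈ M, ∀ k ∈ K, y k ∈ K := fun y hy => hinv y fun w ⟨m, hm, v, hv⟩ =>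
      hS _ ⟨y * m, mul_mem hy hm, v, by rw [hv]; rfl⟩
    have hM' : ∀ y ∈ Set.centralizer (M : Set (H →L[ℂ] H)), ∀ k ∈ K, y k ∈ K := fun y hy =>
      hinv y fun w ⟨m, hm, v, hv⟩ => hS _ ⟨m, hm, y v, by
        rw [hv]
        have e1 := congrArg (fun f : H →L[ℂ] H => f (p v)) (commute_of_mem_centralizer hm hy)
        have e2 := congrArg (fun f : H →L[ℂ] H => f v) (commute_of_mem_centralizer hp.1 hy)
        change y (m (p v)) = m (y (p v)) at e1
        change y (p v) = p (y v) at e2
        rw [e1, e2]⟩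
    have hzM : K.starProjection ∈ M := mem_vna_of_commute fun y hy =>
      starProjection_commute K y (hM' y hy)
        (hM' _ (Set.star_mem_centralizer' (fun z hz => star_mem hz) hy))
    obtain ⟨c, hc'⟩ := T.factor _ hzM fun a ha =>
      (starProjection_commute K a (hM a ha) (hM _ (star_mem ha))).symm
    have hKp : ∀ v, K.starProjection (p v) = p v := fun v =>
      Submodule.starProjection_eq_self_iff.2 (hS _ ⟨1, one_mem M, v, rfl⟩)
    obtain ⟨v, hv⟩ : ∃ v, p v ≠ 0 := by
      by_contra hcon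
      push Not at hcon
      exact hp0 (ContinuousLinearMap.ext hcon)
    have hc1 : c = 1 := by
      have h1 := hKp v
      rw [hc', smul_apply, one_apply_eq_self] at h1
      exact smul_left_injective ℂ hv (by simpa using h1)
    refine hq0 (ContinuousLinearMap.ext fun w => ?_)
    have hw : w ∈ K := by
      have : K.starProjection w = w := by rw [hc', hc1, one_smul]; rfl
      rw [← this]; exact K.starProjection_apply_mem w
    change q w = 0
    refine Submodule.topologicalClosure_minimal (t := LinearMap.ker (q : H →ₗ[ℂ] H)) _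
      (Submodule.span_le.2 ?_) q.isClosed_ker hw
    rintro _ ⟨m, hm, u, rfl⟩
    exact congrArg (fun f : H →L[ℂ] H => f u) (hc m hm)
  obtain ⟨v, hv, hv0, hvp, hvv, h1, h2⟩ := exists_polar_piece (mul_mem (mul_mem hq.1 hx) hp.1) hx0
  exact ⟨v, hv, hv0, hvp, hvv, h1 p hp.2 (by rw [mul_assoc, hp.mul_self]),
    h2 q (by rw [← mul_assoc, ← mul_assoc, hq.mul_self])⟩

lemma proj_of_pi {v : H →L[ℂ] H} (hv : v ∈ M) (hvp : IsStarProjection (star v * v))
    (hvv : v * (star v * v) = v) : IsProj M (star v * v) ∧ IsProj M (v * star v) := by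
  refine ⟨⟨mul_mem (star_mem hv) hv, hvp⟩, mul_mem hv (star_mem hv), ?_,
    IsSelfAdjoint.mul_star_self v⟩
  change v * star v * (v * star v) = v * star v
  rw [← mul_assoc, mul_assoc v (star v) v, hvv]

/-- The span of the products of finitely many partial isometries. -/
lemma finite_of_copies (T : Setup M ξ) {p : H →L[ℂ] H} (hp : IsProj M p) (hp0 : p ≠ 0)
    (hmin : ∀ q, IsProj M q → q * p = q → q = 0 ∨ q = p) :
    FiniteDimensional ℂ (Submodule.span ℂ (M : Set (H →L[ℂ] H))) := by
  classical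
  -- every element of the corner is a scalar
  have hsc : ∀ h ∈ M, p * h = h → h * p = h → ∃ c : ℂ, h = c • p := by
    have hsa : ∀ h ∈ M, IsSelfAdjoint h → p * h = h → ∃ c : ℂ, h = c • p := by
      intro h hh hs hph
      have hcl : IsClosed (Submodule.span ℂ {p} : Set (H →L[ℂ] H)) :=
        Submodule.closed_of_finiteDimensional _
      have hmem : h ∈ closure (Submodule.span ℂ {p} : Set (H →L[ℂ] H)) := by
        rw [Metric.mem_closure_iff]
        intro ε hε
        obtain ⟨m, c, E, hE, -, -, hd⟩ := saApprox_strong hp hh hs hph (half_pos hε)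
        refine ⟨∑ i, (c i : ℂ) • E i, Submodule.sum_mem _ fun i _ => ?_, by
          rw [dist_eq_norm]; linarith⟩
        rcases hmin _ (hE.proj i) (hE.cell_mul i) with h0 | h0 <;> rw [h0]
        · rw [smul_zero]; exact zero_mem _
        · exact Submodule.smul_mem _ _ (Submodule.mem_span_singleton_self p)
      rw [hcl.closure_eq] at hmem
      obtain ⟨c, hc⟩ := Submodule.mem_span_singleton.1 hmem
      exact ⟨c, hc.symm⟩
    intro h hh h1 h2
    have h1' : star h * p = star h := by
      have := congrArg star h1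
      rwa [star_mul, hp.star_eq] at this
    have h2' : p * star h = star h := by
      have := congrArg star h2
      rwa [star_mul, hp.star_eq] at this
    obtain ⟨a, ha⟩ := hsa (h + star h) (add_mem hh (star_mem hh))
      (by rw [IsSelfAdjoint, star_add, star_star, add_comm]) (by rw [mul_add, h1, h2'])
    obtain ⟨b, hb⟩ := hsa (Complex.I • (h - star h))
      (smul_mem M _ (sub_mem hh (star_mem hh)))
      (by rw [IsSelfAdjoint, star_smul, star_sub, star_star, Complex.star_def, Complex.conj_I,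
        neg_smul, ← smul_neg, neg_sub])
      (by rw [mul_smul_comm, mul_sub, h1, h2'])
    refine ⟨(a - Complex.I * b) / 2, ?_⟩
    have e : h = (2 : ℂ)⁻¹ • ((h + star h) + (-Complex.I) • (Complex.I • (h - star h))) := by
      rw [smul_smul, neg_mul, Complex.I_mul_I, neg_neg, one_smul]
      have : h + star h + (h - star h) = (2 : ℂ) • h := by rw [two_smul]; abel
      rw [this, smul_smul, inv_mul_cancel₀ two_ne_zero, one_smul]
    rw [e, ha, hb, smul_smul, ← add_smul, smul_smul]
    congr 1
    ring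
  have ht0 : 0 < trP ξ p := lt_of_le_of_ne (trP_nonneg p) fun h => hp0 (T.eq_zero_of_trP hp h.symm)
  -- copies exhaust `1`
  have hcopy : ∀ k : ℕ, ∀ r, IsProj M r → trP ξ r < k * trP ξ p →
      ∃ l : List (H →L[ℂ] H), (∀ v ∈ l, v ∈ M ∧ star v * v = p) ∧
        r = (l.map fun v => v * star v).sum := by
    intro k
    induction k with
    | zero =>
      intro r _ h
      have := trP_nonneg (ξ := ξ) r
      simp at h
      linarith
    | succ k ih =>
      intro r hr hlt
      by_cases hr0 : r = 0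
      · exact ⟨[], by simp, by simp [hr0]⟩
      obtain ⟨v, hv, hv0, hvp, hvv, hvr, hrv⟩ := exists_link T hp hr hp0 hr0
      obtain ⟨h1, h2⟩ := proj_of_pi hv hvp hvv
      have hvp' : star v * v = p := by
        refine (hmin _ h1 (by rw [mul_assoc, hvr])).resolve_left fun h0 => hv0 ?_
        rw [← hvv, h0, mul_zero]
      have hle : v * star v * r = v * star v := by
        have := congrArg star hrv
        rw [star_mul, hr.star_eq] at this
        rw [mul_assoc, this]
      have hlt' : trP ξ (r - v * star v) < k * trP ξ p := by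
        rw [T.trP_sub hr h2 hle, T.trP_equiv hv h1 h2 rfl rfl |>.symm, hvp']
        push_cast at hlt
        linarith
      obtain ⟨l, hl, hsum⟩ := ih _ (hr.sub h2 hle) hlt'
      refine ⟨v :: l, fun w hw => ?_, ?_⟩
      · rcases List.mem_cons.1 hw with rfl | hw
        exacts [⟨hv, hvp'⟩, hl w hw]
      · rw [List.map_cons, List.sum_cons, ← hsum, add_sub_cancel]
  obtain ⟨k, hk⟩ := exists_nat_gt (1 / trP ξ p)
  obtain ⟨l, hl, hsum⟩ := hcopy k 1 IsProj.one (by
    rw [T.trP_one]; rw [div_lt_iff₀ ht0] at hk; exact hk)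
  set W := Submodule.span ℂ (Set.range fun ij : Fin l.length × Fin l.length =>
    l[ij.1] * star l[ij.2]) with hW
  have hfin : FiniteDimensional ℂ W := FiniteDimensional.span_of_finite ℂ (Set.finite_range _)
  have hsum' : (1 : H →L[ℂ] H) = ∑ i : Fin l.length, l[i] * star l[i] := by
    rw [hsum, ← Fin.sum_univ_fun_getElem l (fun v => v * star v)]
    rfl
  have hle : Submodule.span ℂ (M : Set (H →L[ℂ] H)) ≤ W := by
    refine Submodule.span_le.2 fun a ha => ?_
    have e : a = ∑ i : Fin l.length, ∑ j : Fin l.length,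
        l[i] * (star l[i] * a * l[j]) * star l[j] := by
      conv_lhs => rw [← one_mul a, ← mul_one (1 * a), hsum', Finset.sum_mul, Finset.mul_sum]
      rw [Finset.sum_comm]
      simp only [Finset.sum_mul, mul_assoc]
    rw [e]
    refine Submodule.sum_mem _ fun i _ => Submodule.sum_mem _ fun j _ => ?_
    obtain ⟨hi, hi'⟩ := hl _ (List.getElem_mem i.2)
    obtain ⟨hj, hj'⟩ := hl _ (List.getElem_mem j.2)
    have hpi : ∀ {v : H →L[ℂ] H}, v ∈ M → star v * v = p → v * p = v := fun {v} _ hv => by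
      have h0 : star (v * (1 - p)) * (v * (1 - p)) = 0 := by
        rw [star_mul, mul_assoc, ← mul_assoc (star v), hv, star_sub, star_one, hp.star_eq,
          mul_sub, mul_one, hp.mul_self, sub_self, mul_zero]
      rw [CStarRing.star_mul_self_eq_zero_iff, mul_sub, mul_one, sub_eq_zero] at h0
      exact h0.symm
    have hip := hpi hi hi'
    have hjp := hpi hj hj'
    obtain ⟨c, hc⟩ := hsc (star l[i] * a * l[j]) (mul_mem (mul_mem (star_mem hi) ha) hj)
      (by
        have := congrArg star hip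
        rw [star_mul, hp.star_eq] at this
        simp only [← mul_assoc]; simp only [Fin.getElem_fin] at this ⊢; rw [this])
      (by simp only [mul_assoc]; simp only [Fin.getElem_fin] at hjp ⊢; rw [hjp])
    rw [hc, mul_smul_comm, smul_mul_assoc]
    refine Submodule.smul_mem _ _ ?_
    simp only [Fin.getElem_fin] at hip ⊢
    rw [hip]
    exact Submodule.subset_span ⟨(i, j), rfl⟩
  exact Submodule.finiteDimensional_of_le hle

lemma exists_small (T : Setup M ξ) {p : H →L[ℂ] H} (hp : IsProj M p) (hp0 : p ≠ 0) {ε : ℝ}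
    (hε : 0 < ε) : ∃ q, IsProj M q ∧ q * p = q ∧ q ≠ 0 ∧ trP ξ q ≤ ε := by
  have hsplit : ∀ r, IsProj M r → r ≠ 0 →
      ∃ q, IsProj M q ∧ q * r = q ∧ q ≠ 0 ∧ trP ξ q ≤ trP ξ r / 2 := by
    intro r hr hr0
    by_contra hc
    push Not at hc
    refine T.infinite (finite_of_copies T hr hr0 fun q hq hqr => ?_)
    by_contra hne
    push Not at hne
    have h1 := hc q hq hqr hne.1
    have h2 := hc (r - q) (hr.sub hq hqr)
      (by rw [sub_mul, hr.mul_self, hqr]) (sub_ne_zero.2 (Ne.symm hne.2))
    rw [T.trP_sub hr hq hqr] at h2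
    linarith
  have key : ∀ k : ℕ, ∃ q, IsProj M q ∧ q * p = q ∧ q ≠ 0 ∧ trP ξ q ≤ trP ξ p / 2 ^ k := by
    intro k
    induction k with
    | zero => exact ⟨p, hp, hp.mul_self, hp0, by simp⟩
    | succ k ih =>
      obtain ⟨q, hq, hqp, hq0, hqt⟩ := ih
      obtain ⟨q', hq', hq'q, hq'0, hq't⟩ := hsplit q hq hq0
      refine ⟨q', hq', by rw [← hq'q, mul_assoc, hqp], hq'0, hq't.trans ?_⟩
      rw [pow_succ, ← div_div]
      linarith
  obtain ⟨k, hk⟩ := pow_unbounded_of_one_lt (trP ξ p / ε) (by norm_num : (1 : ℝ) < 2)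
  obtain ⟨q, h1, h2, h3, h4⟩ := key k
  refine ⟨q, h1, h2, h3, h4.trans ?_⟩
  rw [div_le_iff₀ (by positivity)]
  rw [div_lt_iff₀ hε] at hk
  linarith

theorem subProjOut (T : Setup M ξ) : SubProjOut M ξ := by
  intro p hp t ht0 ht
  let α := {q : H →L[ℂ] H // IsProj M q ∧ q * p = q ∧ trP ξ q ≤ t}
  let R : α → α → Prop := fun a b => a.1 * b.1 = a.1
  have hmono : ∀ a b : α, R a b → trP ξ a.1 ≤ trP ξ b.1 := fun a b h =>
    T.trP_mono b.2.1 a.2.1 h
  obtain ⟨⟨q, hq, hqp, hqt⟩, hmax⟩ := exists_maximal T (val := fun a : α => a.1) (R := R)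
    (μ := fun a => trP ξ a.1) (fun a => a.2.1.1) 1 (fun a => a.2.1.norm_le_one)
    (fun a => a.2.1.mul_self)
    (fun a b c (h1 : a.1 * b.1 = a.1) (h2 : b.1 * c.1 = b.1) =>
      show a.1 * c.1 = a.1 by rw [← h1, mul_assoc, h2])
    hmono t (fun a => a.2.2.2)
    (fun a b h => le_of_eq (T.trP_sub b.2.1 a.2.1 h))
    (fun s hs b hb => by
      refine ⟨⟨b, hb.proj T fun n => (s n).2.1.2, ?_, ?_⟩, fun n => ?_⟩
      · refine ((hb.mul T (Tends.const hp.1)).unique T ?_)
        simpa only [fun n => (s n).2.2.1] using hb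
      · exact le_of_tendsto' (hb.trP T) fun n => (s n).2.2.2
      · change (s n).1 * b = (s n).1
        refine (((Tends.const (s n).2.1.1).mul T (hb.shift n)).unique T ?_)
        have : ∀ k, (s n).1 * (s (k + n)).1 = (s n).1 := fun k => hs n (k + n) (by omega)
        simp only [this]
        exact Tends.const (s n).2.1.1)
    ⟨0, IsProj.zero, zero_mul p, by rwa [T.trP_zero]⟩
  refine ⟨q, hq, hqp, le_antisymm hqt (le_of_not_gt fun hlt => ?_)⟩
  have hr : IsProj M (p - q) := hp.sub hq hqp
  have hr0 : p - q ≠ 0 := by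
    intro h0
    rw [sub_eq_zero] at h0
    rw [h0] at ht
    linarith
  obtain ⟨r, hr', hrr, hr0', hrt⟩ := exists_small T hr hr0 (sub_pos.2 hlt)
  have hqr : q * r = 0 := by
    rw [← IsProj.mul_symm hr hr' hrr, ← mul_assoc, mul_sub, hqp, hq.mul_self, sub_self, zero_mul]
  have hrq : r * q = 0 := by
    have := congrArg star hqr
    rwa [star_mul, hq.star_eq, hr'.star_eq, star_zero] at this
  have hsum : IsProj M (q + r) := by
    refine ⟨add_mem hq.1 hr'.1, ?_, hq.2.isSelfAdjoint.add hr'.2.isSelfAdjoint⟩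
    change (q + r) * (q + r) = q + r
    simp [add_mul, mul_add, hqr, hrq, hq.mul_self, hr'.mul_self]
  have hrp : r * p = r := by rw [← hrr, mul_assoc, sub_mul, hp.mul_self, hqp]
  have := hmax ⟨q + r, hsum, by rw [add_mul, hqp, hrp], by rw [trP_add T hq hr' hqr]; linarith⟩
    (show q * (q + r) = q by rw [mul_add, hq.mul_self, hqr, add_zero])
  rw [trP_add T hq hr' hqr] at this
  exact hr0' (T.eq_zero_of_trP hr' (le_antisymm (by linarith) (trP_nonneg r)))

theorem equivOut (T : Setup M ξ) : EquivOut M ξ := by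
  intro p q hp hq heq
  let α := {v : H →L[ℂ] H //
    v ∈ M ∧ IsStarProjection (star v * v) ∧ v * (star v * v) = v ∧ v * p = v ∧ q * v = v}
  let P : α → (H →L[ℂ] H) := fun a => star a.1 * a.1
  have hP : ∀ a : α, IsProj M (P a) := fun a => (proj_of_pi a.2.1 a.2.2.1 a.2.2.2.1).1
  have hPp : ∀ a : α, P a * p = P a := fun a => by simp only [P, mul_assoc, a.2.2.2.2.1]
  let R : α → α → Prop := fun a b => b.1 * P a = a.1 ∧ P a * P b = P a
  have hnorm : ∀ a : α, ‖a.1‖ ≤ 1 := fun a => by
    have h1 := CStarRing.norm_star_mul_self (x := a.1)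
    have h2 := (hP a).norm_le_one
    simp only [P] at h2
    nlinarith [norm_nonneg a.1]
  have hmono : ∀ a b : α, R a b → trP ξ (P a) ≤ trP ξ (P b) := fun a b h =>
    T.trP_mono (hP b) (hP a) h.2
  have hdist : ∀ a b : α, R a b → n2 ξ (b.1 - a.1) ^ 2 ≤ trP ξ (P b) - trP ξ (P a) := by
    intro a b h
    have e : b.1 - a.1 = b.1 * (P b - P a) := by rw [mul_sub, h.1, b.2.2.2.1]
    rw [← T.trP_sub (hP b) (hP a) h.2, trP, e]
    refine pow_le_pow_left₀ (n2_nonneg _) ((n2_mul_le T.summable _ _).trans ?_) 2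
    exact (mul_le_mul_of_nonneg_right (hnorm b) (n2_nonneg _)).trans_eq (one_mul _)
  obtain ⟨⟨v, hvM, hvp, hvv, hvpp, hqv⟩, hmax⟩ := exists_maximal T (val := fun a : α => a.1)
    (R := R) (μ := fun a => trP ξ (P a)) (fun a => a.2.1) 1 hnorm
    (fun a => ⟨a.2.2.2.1, (hP a).mul_self⟩)
    (fun a b c h1 h2 => ⟨by
        have e1 : P b * P a = P a := (hP b).mul_symm (hP a) h1.2
        rw [← e1, ← mul_assoc, h2.1, h1.1],
      by rw [← h1.2, mul_assoc, h2.2]⟩)
    hmono 1 (fun a => T.trP_le_one (hP a)) hdist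
    (fun s hs b hb => by
      have hbP : Tends M ξ (fun n => P (s n)) (star b * b) := (hb.star T).mul T hb
      refine ⟨⟨b, hb.mem', (hbP.proj T fun n => (hP _).2).2, ?_, ?_, ?_⟩, fun n => ⟨?_, ?_⟩⟩
      · refine ((hb.mul T hbP).unique T ?_)
        simpa only [P, fun n => (s n).2.2.2.1] using hb
      · refine ((hb.mul T (Tends.const hp.1)).unique T ?_)
        simpa only [fun n => (s n).2.2.2.2.1] using hb
      · refine (((Tends.const hq.1).mul T hb).unique T ?_)
        simpa only [fun n => (s n).2.2.2.2.2] using hb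
      · change b * P (s n) = (s n).1
        refine (((hb.shift n).mul T (Tends.const (hP _).1)).unique T ?_)
        have : ∀ k, (s (k + n)).1 * P (s n) = (s n).1 := fun k => (hs n (k + n) (by omega)).1
        simp only [this]
        exact Tends.const (s n).2.1
      · change P (s n) * (star b * b) = P (s n)
        refine (((Tends.const (hP _).1).mul T (hbP.shift n)).unique T ?_)
        have : ∀ k, P (s n) * P (s (k + n)) = P (s n) := fun k => (hs n (k + n) (by omega)).2
        simp only [this]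
        exact Tends.const (hP _).1)
    ⟨0, zero_mem M, by simp [IsStarProjection.zero], by simp, by simp, by simp⟩
  obtain ⟨hP1, hP2⟩ := proj_of_pi hvM hvp hvv
  have hPle : star v * v * p = star v * v := by rw [mul_assoc, hvpp]
  have hQle : v * star v * q = v * star v := by
    have := congrArg star hqv
    rw [star_mul, hq.star_eq] at this
    rw [mul_assoc, this]
  have htr : trP ξ (star v * v) = trP ξ (v * star v) := T.trP_equiv hvM hP1 hP2 rfl rfl
  by_cases h0 : p - star v * v = 0
  · rw [sub_eq_zero] at h0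
    refine ⟨v, hvM, h0.symm, (sub_eq_zero.1 (T.eq_zero_of_trP (hq.sub hP2 hQle) ?_)).symm⟩
    rw [T.trP_sub hq hP2 hQle, ← htr, ← h0, heq, sub_self]
  exfalso
  have hq0 : q - v * star v ≠ 0 := by
    intro hq0
    refine h0 (T.eq_zero_of_trP (hp.sub hP1 hPle) ?_)
    rw [T.trP_sub hp hP1 hPle, htr, heq, sub_eq_zero.1 hq0, sub_self]
  obtain ⟨w, hw, hw0, hwp, hww, hwr, hrw⟩ :=
    exists_link T (hp.sub hP1 hPle) (hq.sub hP2 hQle) h0 hq0
  have hp' : (p - star v * v) * (star v * v) = 0 := by
    rw [sub_mul, hp.mul_symm hP1 hPle, hP1.mul_self, sub_self]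
  have hwv : w * (star v * v) = 0 := by rw [← hwr, mul_assoc, hp', mul_zero]
  have hvw : star v * w = 0 := by
    have h1 : v * star v * (q - v * star v) = 0 := by
      rw [mul_sub, hQle, hP2.mul_self, sub_self]
    have h2 : v * star v * w = 0 := by rw [← hrw, ← mul_assoc, h1, zero_mul]
    have h3 : star v * (v * star v) = star v := by
      have := congrArg star hvv
      rwa [star_mul, star_mul, star_star, mul_assoc] at this
    rw [← h3, mul_assoc, h2, mul_zero]
  have hwv' : star w * v = 0 := by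
    have := congrArg star hvw
    rwa [star_mul, star_star, star_zero] at this
  have hww' := (proj_of_pi hw hwp hww).1
  have hvw' : star v * v * (star w * w) = 0 := by
    have := congrArg star hwv
    rw [star_mul, star_zero, star_mul, star_star] at this
    rw [← mul_assoc, this, zero_mul]
  have hsw : v * (star w * w) = 0 := by rw [← hvv, mul_assoc, hvw', mul_zero]
  have hu : star (v + w) * (v + w) = star v * v + star w * w := by
    rw [star_add, add_mul, mul_add, mul_add, hvw, hwv', add_zero, zero_add]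
  have hsum : IsProj M (star v * v + star w * w) := by
    refine ⟨add_mem hP1.1 hww'.1, ?_, hP1.2.isSelfAdjoint.add hww'.2.isSelfAdjoint⟩
    change (star v * v + star w * w) * (star v * v + star w * w) = _
    have h2 : star w * w * (star v * v) = 0 := by rw [mul_assoc, hwv, mul_zero]
    rw [add_mul, mul_add, mul_add, hvw', h2, hP1.mul_self, hww'.mul_self, add_zero, zero_add]
  have hwp' : w * p = w := by
    rw [← hwr, mul_assoc, sub_mul, hp.mul_self, hPle]
  have hqw : q * w = w := by
    rw [← hrw, ← mul_assoc, mul_sub, hq.mul_self, hq.mul_symm hP2 hQle]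
  have := hmax ⟨v + w, add_mem hvM hw, hu.symm ▸ hsum.2,
      by rw [hu, mul_add, add_mul, add_mul, hvv, hwv, hsw, hww]; abel,
      by rw [add_mul, hvpp, hwp'], by rw [mul_add, hqv, hqw]⟩
    ⟨show (v + w) * (star v * v) = v by rw [add_mul, hvv, hwv, add_zero],
      show star v * v * (star (v + w) * (v + w)) = star v * v by
        rw [hu, mul_add, hP1.mul_self, hvw', add_zero]⟩
  simp only [P] at this
  rw [hu, trP_add T hP1 hww' hvw'] at this
  apply hw0
  rw [← hww, T.eq_zero_of_trP hww' (le_antisymm (by linarith) (trP_nonneg _)), mul_zero]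

/-- `n` orthogonal subprojections of trace `u`. -/
lemma exists_carve (T : Setup M ξ) {p : H →L[ℂ] H} (hp : IsProj M p) {u : ℝ} (hu : 0 ≤ u) (n : ℕ)
    (h : n * u ≤ trP ξ p) :
    ∃ E : Fin n → (H →L[ℂ] H), (∀ i, IsProj M (E i) ∧ E i * p = E i ∧ trP ξ (E i) = u) ∧
      ∀ i j, i ≠ j → E i * E j = 0 := by
  induction n generalizing p with
  | zero => exact ⟨fun i => i.elim0, fun i => i.elim0, fun i => i.elim0⟩
  | succ n ih =>
    push_cast at h
    have hnu : (0 : ℝ) ≤ n * u := by positivity
    obtain ⟨q, hq, hqp, hqu⟩ := subProjOut T p hp u hu (by linarith)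
    have hr := hp.sub hq hqp
    obtain ⟨E, hE, hEo⟩ := ih hr (by rw [T.trP_sub hp hq hqp, hqu]; linarith)
    have hEq : ∀ i, E i * q = 0 := fun i => by
      rw [← (hE i).2.1, mul_assoc, sub_mul, hp.mul_symm hq hqp, hq.mul_self, sub_self, mul_zero]
    have hqE : ∀ i, q * E i = 0 := fun i => by
      have := congrArg star (hEq i)
      rwa [star_mul, hq.star_eq, (hE i).1.star_eq, star_zero] at this
    refine ⟨Fin.cons q E, fun i => ?_, fun i j hij => ?_⟩
    · refine Fin.cases ?_ (fun i => ?_) i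
      · exact ⟨by simpa using hq, by simpa using hqp, by simpa using hqu⟩
      · simp only [Fin.cons_succ]
        exact ⟨(hE i).1, by rw [← (hE i).2.1, mul_assoc, sub_mul, hp.mul_self, hqp], (hE i).2.2⟩
    · refine Fin.cases ?_ (fun i => ?_) i j hij
      · intro j
        refine Fin.cases (fun h => absurd rfl h) (fun j _ => ?_) j
        simpa using hqE j
      · intro j
        refine Fin.cases (fun _ => ?_) (fun j h => ?_) j
        · simpa using hEq i
        · simpa using hEo i j fun h' => h (h' ▸ rfl)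

theorem equalPartsOut (T : Setup M ξ) : EqualPartsOut M ξ := by
  intro p hp n hn
  have hn' : (0 : ℝ) < n := by exact_mod_cast hn
  obtain ⟨E, hE, hEo⟩ := exists_carve T hp (u := trP ξ p / n)
    (div_nonneg (trP_nonneg p) hn'.le) n (le_of_eq (mul_div_cancel₀ _ hn'.ne'))
  set s := ∑ i, E i with hs
  have hEs : IsPartition M s E := ⟨fun i => (hE i).1, hEo, rfl⟩
  have hsp : IsProj M s := by
    refine ⟨sum_mem fun i _ => (hE i).1.1, ?_, ?_⟩
    · change s * s = s
      calc s * s = ∑ i, s * E i := Finset.mul_sum _ _ _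
        _ = ∑ i, E i := Finset.sum_congr rfl fun i _ => hEs.mul_cell i
    · rw [IsSelfAdjoint, hs, star_sum]
      exact Finset.sum_congr rfl fun i _ => (hE i).1.star_eq
  have hle : s * p = s := by
    rw [hs, Finset.sum_mul]
    exact Finset.sum_congr rfl fun i _ => (hE i).2.1
  have ht : trP ξ s = trP ξ p := by
    rw [T.trP_partition hsp hEs]
    simp only [(hE _).2.2, Finset.sum_const, Finset.card_univ, Fintype.card_fin, nsmul_eq_mul]
    field_simp
  have heq : p = s := sub_eq_zero.1
    (T.eq_zero_of_trP (hp.sub hsp hle) (by rw [T.trP_sub hp hsp hle, ht, sub_self]))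
  exact ⟨E, heq ▸ hEs, fun i => (hE i).2.2⟩

theorem adaptedOut (T : Setup M ξ) : AdaptedOut M ξ := by
  classical
  intro e he het m E hE N hN
  have hN' : (0 : ℝ) < N := by exact_mod_cast hN
  set u := trP ξ e / N with hu
  have hu0 : 0 < u := div_pos het hN'
  have hfl : ∀ k, (⌊trP ξ (E k) / u⌋₊ : ℝ) * u ≤ trP ξ (E k) := fun k => by
    rw [← le_div_iff₀ hu0]
    exact Nat.floor_le (div_nonneg (trP_nonneg _) hu0.le)
  choose F hF hFo using fun k => exists_carve T (hE.proj k) hu0.le _ (hfl k)
  set c : Fin m → ℕ := fun k => ⌊trP ξ (E k) / u⌋₊ with hc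
  have hcell : ∀ a : Σ k, Fin (c k), IsProj M (F a.1 a.2) ∧ F a.1 a.2 * E a.1 = F a.1 a.2 :=
    fun a => ⟨(hF a.1 a.2).1, (hF a.1 a.2).2.1⟩
  have horth : ∀ a b : Σ k, Fin (c k), a ≠ b → F a.1 a.2 * F b.1 b.2 = 0 := by
    rintro ⟨k, i⟩ ⟨k', i'⟩ hne
    by_cases hk : k = k'
    · subst hk
      exact hFo k i i' fun h => hne (h ▸ rfl)
    · rw [← (hcell ⟨k, i⟩).2, mul_assoc, ← (hE.proj k').mul_symm (hcell ⟨k', i'⟩).1
        (hcell ⟨k', i'⟩).2, ← mul_assoc (E k), hE.orth k k' hk, zero_mul, mul_zero]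
  set s := ∑ a : Σ k, Fin (c k), F a.1 a.2 with hs
  have hEs : IsPartition M s fun a : Σ k, Fin (c k) => F a.1 a.2 :=
    ⟨fun a => (hcell a).1, horth, rfl⟩
  have hsp : IsProj M s := by
    refine ⟨sum_mem fun a _ => (hcell a).1.1, ?_, ?_⟩
    · change s * s = s
      calc s * s = ∑ a : Σ k, Fin (c k), s * F a.1 a.2 := Finset.mul_sum _ _ _
        _ = s := Finset.sum_congr rfl fun a _ => hEs.mul_cell a
    · rw [IsSelfAdjoint, hs, star_sum]
      exact Finset.sum_congr rfl fun a _ => (hcell a).1.star_eq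
  have hse : s * e = s := by
    rw [hs, Finset.sum_mul]
    exact Finset.sum_congr rfl fun a _ => by
      rw [← (hcell a).2, mul_assoc, hE.cell_mul a.1]
  set n1 := ∑ k, c k with hn1
  have hcard : Fintype.card (Σ k, Fin (c k)) = n1 := by simp [hn1]
  have hts : trP ξ s = n1 * u := by
    rw [T.trP_partition hsp hEs]
    simp only [(hF _ _).2.2, Finset.sum_const, Finset.card_univ, nsmul_eq_mul, hcard]
  have hete : trP ξ e = ∑ k, trP ξ (E k) := T.trP_partition he hE
  have hue : (N : ℝ) * u = trP ξ e := by rw [hu]; field_simp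
  have hn1N : n1 ≤ N := by
    have h1 : (n1 : ℝ) * u ≤ N * u := by
      rw [hue, hete, hn1, Nat.cast_sum, Finset.sum_mul]
      exact Finset.sum_le_sum fun k _ => hfl k
    exact_mod_cast le_of_mul_le_mul_right h1 hu0
  have hn2m : N - n1 ≤ m := by
    by_contra hlt
    push Not at hlt
    have h1 : (N : ℝ) * u ≤ n1 * u + m * u := by
      rw [hue, hete, hn1, Nat.cast_sum, Finset.sum_mul]
      calc ∑ k, trP ξ (E k) ≤ ∑ k, ((c k : ℝ) * u + u) := Finset.sum_le_sum fun k _ => by
            have := Nat.lt_floor_add_one (trP ξ (E k) / u)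
            rw [div_lt_iff₀ hu0] at this
            simp only [hc]
            linarith
        _ = _ := by simp [Finset.sum_add_distrib]
    have h2 : (n1 + m + 1 : ℝ) ≤ N := by
      exact_mod_cast (show n1 + m + 1 ≤ N by omega)
    nlinarith
  obtain ⟨G, hG, hGo⟩ := exists_carve T (he.sub hsp hse) hu0.le (N - n1) (le_of_eq (by
    rw [T.trP_sub he hsp hse, hts, ← hue, Nat.cast_sub hn1N]; ring))
  have hFG : ∀ a : Σ k, Fin (c k), ∀ i, F a.1 a.2 * G i = 0 ∧ G i * F a.1 a.2 = 0 := fun a i => by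
    have h1 : s * G i = 0 := by
      rw [← (he.sub hsp hse).mul_symm (hG i).1 (hG i).2.1, ← mul_assoc, mul_sub, hse,
        hsp.mul_self, sub_self, zero_mul]
    have h2 : F a.1 a.2 * G i = 0 := by rw [← hEs.cell_mul a, mul_assoc, h1, mul_zero]
    refine ⟨h2, ?_⟩
    have := congrArg star h2
    rwa [star_mul, (hG i).1.star_eq, (hcell a).1.star_eq, star_zero] at this
  let ψ : (Σ k, Fin (c k)) ⊕ Fin (N - n1) ≃ Fin N :=
    Fintype.equivFinOfCardEq (by rw [Fintype.card_sum, hcard, Fintype.card_fin]; omega)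
  let Φ : (Σ k, Fin (c k)) ⊕ Fin (N - n1) → (H →L[ℂ] H) := Sum.elim (fun a => F a.1 a.2) G
  have hΦp : ∀ x, IsProj M (Φ x) ∧ trP ξ (Φ x) = u ∧ Φ x * e = Φ x := by
    rintro (a | i)
    · exact ⟨(hcell a).1, (hF a.1 a.2).2.2, show F a.1 a.2 * e = F a.1 a.2 by
        rw [← (hcell a).2, mul_assoc, hE.cell_mul a.1]⟩
    · exact ⟨(hG i).1, (hG i).2.2, show G i * e = G i by
        rw [← (hG i).2.1, mul_assoc, sub_mul, he.mul_self, hse]⟩
  have hΦo : ∀ x y, x ≠ y → Φ x * Φ y = 0 := by
    rintro (a | i) (b | j) hne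
    · exact horth a b fun h => hne (h ▸ rfl)
    · exact (hFG a j).1
    · exact (hFG b i).2
    · exact hGo i j fun h => hne (h ▸ rfl)
  have htot : ∑ x, Φ x = e := by
    set S2 := ∑ x, Φ x with hS2
    have hP : IsPartition M S2 Φ := ⟨fun x => (hΦp x).1, hΦo, rfl⟩
    have hS2p : IsProj M S2 := by
      refine ⟨sum_mem fun x _ => (hΦp x).1.1, ?_, ?_⟩
      · change S2 * S2 = S2
        calc S2 * S2 = ∑ x, S2 * Φ x := Finset.mul_sum _ _ _
          _ = S2 := Finset.sum_congr rfl fun x _ => hP.mul_cell x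
      · rw [IsSelfAdjoint, hS2, star_sum]
        exact Finset.sum_congr rfl fun x _ => (hΦp x).1.star_eq
    have hle : S2 * e = S2 := by
      rw [hS2, Finset.sum_mul]
      exact Finset.sum_congr rfl fun x _ => (hΦp x).2.2
    refine (sub_eq_zero.1 (T.eq_zero_of_trP (he.sub hS2p hle) ?_)).symm
    rw [T.trP_sub he hS2p hle, T.trP_partition hS2p hP]
    simp only [(hΦp _).2.1, Finset.sum_const, Finset.card_univ, Fintype.card_congr ψ,
      Fintype.card_fin, nsmul_eq_mul, hue, sub_self]
  refine ⟨fun j => Φ (ψ.symm j), Finset.univ.image fun i => ψ (Sum.inr i),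
    ⟨fun j => (hΦp _).1, fun i j hij => hΦo _ _ fun h => hij (ψ.symm.injective h),
      (Equiv.sum_comp ψ.symm Φ).trans htot⟩, fun j => (hΦp _).2.1,
    Finset.card_image_le.trans (by simpa using hn2m), fun j hj => ?_⟩
  rcases hx : ψ.symm j with a | i
  · exact ⟨a.1, by simp only [hx]; exact (hcell a).2⟩
  · refine absurd (Finset.mem_image.2 ⟨i, Finset.mem_univ _, ?_⟩) hj
    rw [← hx, Equiv.apply_symm_apply]

end Vale.Agent.P085.Toolkit
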