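import Vale.Agent.P085.Toolkit.Trace

/-!
# Trace-norm limits of bounded sequences, and greedy sequences of extensions
-/

namespace Vale.Agent.P085.Toolkit

open Filter Topology

universe u

variable {H : Type u} [NormedAddCommGroup H] [InnerProductSpace ℂ H] [CompleteSpace H]
variable {M : VonNeumannAlgebra H} {ξ : ℕ → H}

/-- a bounded sequence in `M` converging to `b` in trace norm -/
structure Tends (M : VonNeumannAlgebra H) (ξ : ℕ → H) (a : ℕ → H →L[ℂ] H) (b : H →L[ℂ] H) :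
    Prop where
  mem : ∀ n, a n ∈ M
  mem' : b ∈ M
  bdd : ∃ R, ∀ n, ‖a n‖ ≤ R
  lim : Tendsto (fun n => n2 ξ (a n - b)) atTop (𝓝 0)

namespace Tends

variable {a a' : ℕ → H →L[ℂ] H} {b b' : H →L[ℂ] H}

lemma const (hb : b ∈ M) : Tends M ξ (fun _ => b) b :=
  ⟨fun _ => hb, hb, ⟨‖b‖, fun _ => le_rfl⟩, by simp [n2]⟩

lemma shift (h : Tends M ξ a b) (k : ℕ) : Tends M ξ (fun n => a (n + k)) b :=
  ⟨fun _ => h.mem _, h.mem', h.bdd.imp fun _ hR n => hR _,
    h.lim.comp (tendsto_add_atTop_nat k)⟩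

variable (T : Setup M ξ)
include T

lemma unique (h : Tends M ξ a b) (h' : Tends M ξ a b') : b = b' := by
  refine sub_eq_zero.1 (T.eq_zero_of_n2 (sub_mem h.mem' h'.mem') (le_antisymm ?_ (n2_nonneg _)))
  refine ge_of_tendsto' (by simpa using h.lim.add h'.lim) fun n => ?_
  have := n2_sub_le T.summable b (a n) b'
  rwa [n2_sub_comm T.summable b (a n)] at this

lemma star (h : Tends M ξ a b) : Tends M ξ (fun n => Star.star (a n)) (Star.star b) := by
  refine ⟨fun n => star_mem (h.mem n), star_mem h.mem', ?_, h.lim.congr fun n => ?_⟩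
  · obtain ⟨R, hR⟩ := h.bdd
    exact ⟨R, fun n => (norm_star _).trans_le (hR n)⟩
  · rw [← star_sub, T.n2_star (sub_mem (h.mem n) h.mem')]

lemma mul (h : Tends M ξ a b) (h' : Tends M ξ a' b') :
    Tends M ξ (fun n => a n * a' n) (b * b') := by
  obtain ⟨R, hR⟩ := h.bdd
  obtain ⟨R', hR'⟩ := h'.bdd
  refine ⟨fun n => mul_mem (h.mem n) (h'.mem n), mul_mem h.mem' h'.mem',
    ⟨R * R', fun n => (norm_mul_le _ _).trans (by
      gcongr
      · exact (norm_nonneg _).trans (hR n)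
      · exact hR n
      · exact hR' n)⟩, ?_⟩
  refine squeeze_zero (fun n => n2_nonneg _) (fun n => ?_)
    (by simpa using (h'.lim.const_mul R).add (h.lim.mul_const ‖b'‖))
  have e : a n * a' n - b * b' = a n * (a' n - b') + (a n - b) * b' := by noncomm_ring
  rw [e]
  refine (n2_add_le T.summable _ _).trans (add_le_add ?_ ?_)
  · exact (n2_mul_le T.summable _ _).trans
      (mul_le_mul_of_nonneg_right (hR n) (n2_nonneg _))
  · exact T.n2_mul_le' (sub_mem (h.mem n) h.mem') h'.mem'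

lemma n2 (h : Tends M ξ a b) : Tendsto (fun n => P085.n2 ξ (a n)) atTop (𝓝 (P085.n2 ξ b)) := by
  rw [tendsto_iff_norm_sub_tendsto_zero]
  refine squeeze_zero (fun n => norm_nonneg _) (fun n => ?_) h.lim
  rw [← norm_emb T.summable, ← norm_emb T.summable, ← norm_emb T.summable, map_sub]
  exact abs_norm_sub_norm_le _ _

lemma trP (h : Tends M ξ a b) :
    Tendsto (fun n => P085.trP ξ (a n)) atTop (𝓝 (P085.trP ξ b)) :=
  (h.n2 T).pow 2

lemma proj (h : Tends M ξ a b) (hp : ∀ n, IsStarProjection (a n)) : IsProj M b := by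
  refine ⟨h.mem', ?_, ?_⟩
  · refine ((h.mul T h).unique T ?_)
    simpa only [fun n => (hp n).isIdempotentElem.eq] using h
  · refine ((h.star T).unique T ?_)
    simpa only [fun n => (hp n).isSelfAdjoint.star_eq] using h

end Tends

/-- A sequence of successive extensions along which the gain still available tends to zero. -/
lemma exists_greedy {α : Type*} (R : α → α → Prop) (μ : α → ℝ) (hrefl : ∀ a, R a a)
    (htrans : ∀ a b c, R a b → R b c → R a c) (hmono : ∀ a b, R a b → μ a ≤ μ b) (B : ℝ)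
    (hB : ∀ a, μ a ≤ B) (a0 : α) :
    ∃ s : ℕ → α, (∀ m n, m ≤ n → R (s m) (s n)) ∧
      ∀ γ, 0 < γ → ∃ N, ∀ n, N ≤ n → ∀ a, R (s n) a → μ a < μ (s n) + γ := by
  have hne : ∀ a, ∃ b, R a b ∧ ∀ c, R a c → μ c - μ a ≤ 2 * (μ b - μ a) ∨ μ c - μ a ≤ 0 := by
    intro a
    set S := {x | ∃ c, R a c ∧ x = μ c - μ a}
    have hS : BddAbove S := ⟨B - μ a, by rintro _ ⟨c, -, rfl⟩; linarith [hB c]⟩
    by_cases hpos : ∃ c, R a c ∧ 0 < μ c - μ a
    · obtain ⟨c0, hc0, hc0'⟩ := hpos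
      have h0 : 0 < sSup S := lt_of_lt_of_le hc0' (le_csSup hS ⟨c0, hc0, rfl⟩)
      obtain ⟨_, ⟨b, hb, rfl⟩, hlt⟩ :=
        exists_lt_of_lt_csSup (s := S) ⟨_, c0, hc0, rfl⟩ (half_lt_self h0)
      exact ⟨b, hb, fun c hc => Or.inl (by linarith [le_csSup hS ⟨c, hc, rfl⟩])⟩
    · push Not at hpos
      exact ⟨a, hrefl a, fun c hc => Or.inr (hpos c hc)⟩
  choose f hf hf' using hne
  refine ⟨fun n => f^[n] a0, fun m n hmn => ?_, ?_⟩
  · induction n, hmn using Nat.le_induction with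
    | base => exact hrefl _
    | succ n _ ih => exact htrans _ _ _ ih (by
        simp only [Function.iterate_succ_apply'] at *; exact hf _)
  · intro γ hγ
    have hm : Monotone fun n => μ (f^[n] a0) := monotone_nat_of_le_succ fun n => by
      simp only [Function.iterate_succ_apply'] at *; exact hmono _ _ (hf _)
    have hlim := tendsto_atTop_ciSup hm ⟨B, by rintro _ ⟨n, rfl⟩; exact hB _⟩
    obtain ⟨N, hN⟩ := Metric.tendsto_atTop.1 hlim (γ / 5) (by linarith)
    refine ⟨N, fun n hn c hc => ?_⟩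
    have h1 := abs_lt.1 (Real.dist_eq _ _ ▸ hN n hn)
    have h2 := abs_lt.1 (Real.dist_eq _ _ ▸ hN (n + 1) (by omega))
    simp only [Function.iterate_succ_apply'] at h2
    simp only [] at hc ⊢
    rcases hf' _ c hc with h | h <;> linarith [h1.1, h1.2, h2.1, h2.2]

/-- A maximal element for a relation whose increments are measured by `μ` and control the distance
of the representatives: given are limits of chains; the conclusion is an element without proper
extension. -/
lemma exists_maximal (T : Setup M ξ) {α : Type*} (val : α → H →L[ℂ] H) (R : α → α → Prop)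
    (μ : α → ℝ) (hmem : ∀ a, val a ∈ M) (C : ℝ) (hC : ∀ a, ‖val a‖ ≤ C)
    (hrefl : ∀ a, R a a) (htrans : ∀ a b c, R a b → R b c → R a c)
    (hmono : ∀ a b, R a b → μ a ≤ μ b) (B : ℝ) (hB : ∀ a, μ a ≤ B)
    (hdist : ∀ a b, R a b → n2 ξ (val b - val a) ^ 2 ≤ μ b - μ a)
    (hlim : ∀ s : ℕ → α, (∀ m n, m ≤ n → R (s m) (s n)) → ∀ b, Tends M ξ (fun n => val (s n)) b →
      ∃ a, ∀ n, R (s n) a) (a0 : α) :
    ∃ a, ∀ a', R a a' → μ a' ≤ μ a := by
  obtain ⟨s, hs, hgain⟩ := exists_greedy R μ hrefl htrans hmono B hB a0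
  have hc : ∀ ε : ℝ, 0 < ε → ∃ N, ∀ m ≥ N, ∀ n ≥ N, n2 ξ (val (s m) - val (s n)) < ε := by
    intro ε hε
    obtain ⟨N, hN⟩ := hgain ((ε / 2) ^ 2) (by positivity)
    have key : ∀ m ≥ N, n2 ξ (val (s m) - val (s N)) < ε / 2 := fun m hm => by
      have h1 := hdist _ _ (hs N m hm)
      have h2 := hN N le_rfl _ (hs N m hm)
      exact (sq_lt_sq₀ (n2_nonneg _) (by positivity)).1 (by linarith)
    refine ⟨N, fun m hm n hn => ?_⟩
    have := n2_sub_le T.summable (val (s m)) (val (s N)) (val (s n))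
    rw [n2_sub_comm T.summable (val (s N))] at this
    linarith [key m hm, key n hn]
  obtain ⟨b, hb, -, -, hl⟩ := T.exists_limit (fun n => hmem (s n)) (fun n => hC (s n)) hc
  obtain ⟨a, ha⟩ := hlim s hs b ⟨fun n => hmem _, hb, ⟨C, fun n => hC _⟩, hl⟩
  refine ⟨a, fun a' h' => le_of_forall_pos_lt_add fun γ hγ => ?_⟩
  obtain ⟨N, hN⟩ := hgain γ hγ
  have := hN N le_rfl a' (htrans _ _ _ (ha N) h')
  linarith [hmono _ _ (ha N)]

end Vale.Agent.P085.Toolkit
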